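import Vale.Agent.Lib.P262.Recursion

/-! Choice of the numerical parameters for P262. -/

namespace Vale.Agent.P262

open Finset Real

theorem thousand_mul_le {L : ℕ} (hL : 20 ≤ L) : 1000 * L ≤ 2 ^ L := by
  induction L, hL using Nat.le_induction with
  | base => norm_num
  | succ n hn ih =>
    rw [pow_succ]
    omega

theorem exists_par (d L : ℕ) (hd : 1 ≤ d) (hL : 2 ^ 20 * (d + 2) ≤ 2 ^ L) :
    ∃ p : Par d, √d * (p.Am + 25 * (p.n0 * (p.ℓ + 1) + 1)) + p.hs ≤ 7200 * L * √d := by
  have hL20 : 20 ≤ L := by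
    by_contra h
    rw [not_le] at h
    have h1 : 2 ^ L ≤ 2 ^ 20 := Nat.pow_le_pow_right (by norm_num) h.le
    omega
  have hLN := thousand_mul_le hL20
  set P : ℝ := 2 ^ L with hP
  have hPd : 2 ^ 20 * ((d : ℝ) + 2) ≤ P := by rw [hP]; exact_mod_cast hL
  have hPL : 1000 * (L : ℝ) ≤ P := by rw [hP]; exact_mod_cast hLN
  have hLr : (20 : ℝ) ≤ L := by exact_mod_cast hL20
  have hd1 : (1 : ℝ) ≤ d := by exact_mod_cast hd
  have hP20 : (2 : ℝ) ^ 20 ≤ P := by nlinarith
  have hP0 : 0 < P := by linarith [show (0 : ℝ) < 2 ^ 20 by norm_num]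
  have hP1 : 1 ≤ P := by linarith [show (1 : ℝ) ≤ 2 ^ 20 by norm_num]
  have hdP : (d : ℝ) + 2 ≤ P := by nlinarith
  have hPb : (1000000 : ℝ) ≤ P := by linarith [show (1000000 : ℝ) ≤ 2 ^ 20 by norm_num]
  -- useful monomial inequality
  have hpow : ∀ m n : ℕ, m ≤ n → P ^ m ≤ P ^ n := fun m n h => pow_le_pow_right₀ hP1 h
  have hpow1 : ∀ m n : ℕ, m + 1 = n → 1000000 * P ^ m ≤ P ^ n := by
    intro m n h
    rw [← h, pow_succ, mul_comm]
    exact mul_le_mul_of_nonneg_left hPb (by positivity)
  have hℓ : (3 / 4 : ℝ) ^ (25 * L) ≤ 1 / P ^ 10 := by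
    have h1 : (3 / 4 : ℝ) ^ (25 * L) = ((3 / 4 : ℝ) ^ 5) ^ (5 * L) := by
      rw [← pow_mul]
      congr 1
      ring
    rw [h1]
    calc ((3 / 4 : ℝ) ^ 5) ^ (5 * L) ≤ ((1 / 4 : ℝ)) ^ (5 * L) :=
          pow_le_pow_left₀ (by positivity) (by norm_num) _
      _ = 1 / P ^ 10 := by
          rw [hP, ← pow_mul, one_div_pow, show (4 : ℝ) = 2 ^ 2 by norm_num, ← pow_mul]
          congr 2
          ring
  have h2ℓ : (2 : ℝ) ^ (25 * L) = P ^ 25 := by
    rw [hP, ← pow_mul]
    congr 1
    ring
  have hΘ : ∀ n : ℕ, 10 ≤ n →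
      √(2 * (2 ^ (25 * L + 1) * P ^ 5) / (P ^ 6) ^ n) ≤ 2 / (P ^ 5 * P ^ n) := by
    intro n hn
    obtain ⟨m, rfl⟩ := Nat.exists_eq_add_of_le hn
    rw [show 2 / (P ^ 5 * P ^ (10 + m)) = √((2 / (P ^ 5 * P ^ (10 + m))) ^ 2) from
      (Real.sqrt_sq (by positivity)).symm]
    apply Real.sqrt_le_sqrt
    rw [pow_succ, h2ℓ, div_pow, div_le_div_iff₀ (by positivity) (by positivity)]
    have e1 : 2 * (P ^ 25 * 2 * P ^ 5) * (P ^ 5 * P ^ (10 + m)) ^ 2 =
        4 * P ^ (60 + 2 * m) := by ring
    have e2 : (2 : ℝ) ^ 2 * (P ^ 6) ^ (10 + m) = 4 * P ^ (60 + 6 * m) := by ring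
    rw [e1, e2]
    exact mul_le_mul_of_nonneg_left (hpow _ _ (by omega)) (by norm_num)
  have hhalf : ∀ n : ℕ, 1 / P ^ n ≤ (1 / 2 : ℝ) ^ n := by
    intro n
    rw [one_div_pow]
    apply one_div_le_one_div_of_le (by positivity)
    exact pow_le_pow_left₀ (by norm_num) (by linarith) n
  have hsqd : √(d : ℝ) ≤ d := by
    rw [Real.sqrt_le_left (by linarith)]
    nlinarith
  have hsqd0 : 0 ≤ √(d : ℝ) := Real.sqrt_nonneg _
  have hsqd1 : 1 ≤ √(d : ℝ) := by
    rw [Real.one_le_sqrt]
    exact hd1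
  have hgeo : ∀ n : ℕ, ∑ j ∈ range n, (1 / 2 : ℝ) ^ j ≤ 2 := by
    intro n
    rw [geom_sum_eq (by norm_num)]
    have : (0 : ℝ) ≤ (1 / 2) ^ n := by positivity
    have h3 : ((1 / 2 : ℝ) ^ n - 1) / (1 / 2 - 1) = 2 - 2 * (1 / 2) ^ n := by ring
    rw [h3]
    linarith
  let p : Par d := {
    r := 12 * L
    hs := 48 * L + 1
    Λ := P ^ 5
    ρ := 48 * L + 1 + 2 * (d + 2) ^ 2
    τ := 1 / (8 * (d + 2) ^ 2 * P ^ 6)
    K := P ^ 6
    Am := 12 * L + 1 + (48 * L + 1) + (10 * ((25 * L + 1) + (48 * L + 1)) + 4)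
    ℓ := 25 * L
    n0 := 10
    κ := fun n => if n < 10 then 1 else (1 / 2) ^ n / (25 * L + 1)
    η := fun n => if n < 10 then 48 * L + 1 else (1 / 2) ^ n
    hr := by positivity
    hr1 := by
      have h1 : exp (1 / 64) ≤ (2 : ℝ) := by
        have h := Real.exp_bound' (x := 1 / 64) (by norm_num) (by norm_num) (n := 2)
          (by norm_num)
        refine h.trans ?_
        norm_num [Finset.sum_range_succ, Nat.factorial]
      have h2 : P ≤ exp (12 * L / 16) := by
        have h3 : (2 : ℝ) ≤ exp (3 / 4) := by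
          have h4 := Real.log_two_lt_d9
          calc (2 : ℝ) = exp (log 2) := (Real.exp_log (by norm_num)).symm
            _ ≤ exp (3 / 4) := Real.exp_le_exp.mpr (by linarith)
        calc P = 2 ^ L := hP
          _ ≤ exp (3 / 4) ^ L := pow_le_pow_left₀ (by norm_num) h3 L
          _ = exp (12 * L / 16) := by
              rw [← Real.exp_nat_mul]
              congr 1
              ring
      have h5 : 4 * exp (1 / 64) * (2 * d + 1) ≤ 8 * (2 * (d : ℝ) + 1) :=
        mul_le_mul_of_nonneg_right (by linarith) (by positivity)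
      linarith
    hhs := by positivity
    hρ := by linarith
    hΛ1 := by
      have h1 : (d : ℝ) * (12 * L + 1 + 2 * (48 * L + 1)) ≤ P * P :=
        mul_le_mul (by linarith) (by linarith) (by positivity) (by positivity)
      have h2 := hpow1 4 5 rfl
      calc (20 * ((d : ℝ) * (12 * L + 1 + 2 * (48 * L + 1)))) ^ 2 ≤ (20 * (P * P)) ^ 2 :=
            pow_le_pow_left₀ (by positivity) (by linarith) 2
        _ = 400 * P ^ 4 := by ring
        _ ≤ P ^ 5 := by
            have : 0 ≤ P ^ 4 := by positivity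
            linarith
    hΛ2 := by
      have h1 : (d : ℝ) * (12 * L + 1 + 2 * (48 * L + 1)) ≤ P * P :=
        mul_le_mul (by linarith) (by linarith) (by positivity) (by positivity)
      have h3 : ((d : ℝ) + 2) ^ 2 ≤ P ^ 2 := pow_le_pow_left₀ (by positivity) hdP 2
      have h4 := hpow 1 2 (by norm_num)
      rw [pow_one] at h4
      have h5 : (48 * (L : ℝ) + 1 + 2 * (d + 2) ^ 2 + (48 * L + 1)) ≤ 4 * P ^ 2 := by
        linarith
      have h2 := hpow1 4 5 rfl
      calc 2 * ((d : ℝ) * (12 * L + 1 + 2 * (48 * L + 1)) *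
            (48 * L + 1 + 2 * (d + 2) ^ 2 + (48 * L + 1))) ≤ 2 * (P * P * (4 * P ^ 2)) := by
            apply mul_le_mul_of_nonneg_left _ (by norm_num)
            exact mul_le_mul h1 h5 (by positivity) (by positivity)
        _ = 8 * P ^ 4 := by ring
        _ ≤ P ^ 5 := by
            have : 0 ≤ P ^ 4 := by positivity
            linarith
    hΛ3 := by
      have h3 : ((d : ℝ) + 2) ^ 2 ≤ P ^ 2 := pow_le_pow_left₀ (by positivity) hdP 2
      have h4 := hpow 1 2 (by norm_num)
      rw [pow_one] at h4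
      have h6 := hpow1 2 3 rfl
      have h7 := hpow 3 5 (by norm_num)
      have h8 : 0 ≤ P ^ 2 := by positivity
      linarith
    hΛ4 := by
      have h6 := hpow 1 5 (by norm_num)
      rw [pow_one] at h6
      linarith
    hK := by
      have h6 := hpow 1 6 (by norm_num)
      rw [pow_one] at h6
      linarith
    hτ := by positivity
    hpiv := by
      have h1 : 4 * (((d : ℝ) + 2) ^ 2 * (1 / (8 * (d + 2) ^ 2 * P ^ 6))) = 1 / (2 * P ^ 6) := by
        field_simp
        norm_num
      have h2 : 1 / P ^ 10 ≤ 1 / (2 * P ^ 6) := by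
        apply one_div_le_one_div_of_le (by positivity)
        have h3 := hpow1 6 7 rfl
        have h4 := hpow 7 10 (by norm_num)
        have : 0 ≤ P ^ 6 := by positivity
        linarith
      have h5 : 1 / P ^ 6 = 1 / (2 * P ^ 6) + 1 / (2 * P ^ 6) := by
        field_simp
        norm_num
      rw [h1, h5]
      linarith
    hcnt := by
      have h1 : (d : ℝ) / (1 / (8 * (d + 2) ^ 2 * P ^ 6)) ≤ 8 * P ^ 9 := by
        rw [div_div_eq_mul_div, div_one]
        have h3 : ((d : ℝ) + 2) ^ 2 ≤ P ^ 2 := pow_le_pow_left₀ (by positivity) hdP 2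
        have h4 : (d : ℝ) ≤ P := by linarith
        calc (d : ℝ) * (8 * (d + 2) ^ 2 * P ^ 6) ≤ P * (8 * P ^ 2 * P ^ 6) := by
              apply mul_le_mul h4 _ (by positivity) (by positivity)
              apply mul_le_mul_of_nonneg_right _ (by positivity)
              linarith
          _ = 8 * P ^ 9 := by ring
      have h2 : (3 / 4 : ℝ) ^ (25 * L) * (d / (1 / (8 * (d + 2) ^ 2 * P ^ 6))) ≤ 1 := by
        calc (3 / 4 : ℝ) ^ (25 * L) * (d / (1 / (8 * (d + 2) ^ 2 * P ^ 6))) ≤
              1 / P ^ 10 * (8 * P ^ 9) :=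
              mul_le_mul hℓ h1 (by positivity) (by positivity)
          _ = 8 / P := by
              field_simp
          _ ≤ 1 := by
              rw [div_le_one hP0]
              linarith
      linarith
    hn0 := by norm_num
    hκ0 := by
      intro n
      split_ifs <;> positivity
    hη0 := by
      intro n
      split_ifs <;> positivity
    hκ1 := by
      intro n hn
      simp [hn]
    hκ2 := by
      intro n hn
      have h1 : ¬ n < 10 := by omega
      simp only [h1, if_false]
      have h2 := hΘ n hn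
      have h3 := hhalf n
      rw [le_div_iff₀ (by positivity)]
      have h4 : (1 + 12 * (L : ℝ) * √d) * 2 * (25 * L + 1) ≤ P ^ 5 := by
        have h5 : (L : ℝ) * √d ≤ P * P := mul_le_mul (by linarith) (by linarith) hsqd0 hP0.le
        have h6 := hpow 1 2 (by norm_num)
        rw [pow_one] at h6
        have h7 : 1 + 12 * (L : ℝ) * √d ≤ 13 * P ^ 2 := by nlinarith
        have h8 : 25 * (L : ℝ) + 1 ≤ P := by linarith
        calc (1 + 12 * (L : ℝ) * √d) * 2 * (25 * L + 1) ≤ (13 * P ^ 2) * 2 * P := by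
              apply mul_le_mul _ h8 (by positivity) (by positivity)
              exact mul_le_mul_of_nonneg_right h7 (by norm_num)
          _ = 26 * P ^ 3 := by ring
          _ ≤ P ^ 5 := by
              have h9 := hpow1 3 4 rfl
              have h10 := hpow 4 5 (by norm_num)
              have : 0 ≤ P ^ 3 := by positivity
              linarith
      calc (1 + 12 * (L : ℝ) * √d) * √(2 * (2 ^ (25 * L + 1) * P ^ 5) / (P ^ 6) ^ n) *
            (25 * L + 1) ≤ (1 + 12 * (L : ℝ) * √d) * (2 / (P ^ 5 * P ^ n)) * (25 * L + 1) := by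
            apply mul_le_mul_of_nonneg_right _ (by positivity)
            exact mul_le_mul_of_nonneg_left h2 (by positivity)
        _ = ((1 + 12 * (L : ℝ) * √d) * 2 * (25 * L + 1)) / P ^ 5 * (1 / P ^ n) := by
            field_simp
        _ ≤ 1 * (1 / 2) ^ n := by
            apply mul_le_mul _ h3 (by positivity) (by norm_num)
            rw [div_le_one (by positivity)]
            exact h4
        _ = (1 / 2) ^ n := one_mul _
    hη1 := by
      intro n hn
      simp [hn]
    hη2 := by
      intro n hn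
      have h1 : ¬ n < 10 := by omega
      simp only [h1, if_false]
      have h2 := hΘ n hn
      have h3 := hhalf n
      have h4 : (48 * (L : ℝ) + 1) * 2 ≤ P ^ 5 := by
        have h6 := hpow 1 5 (by norm_num)
        rw [pow_one] at h6
        linarith
      calc (48 * (L : ℝ) + 1) * √(2 * (2 ^ (25 * L + 1) * P ^ 5) / (P ^ 6) ^ n) ≤
            (48 * (L : ℝ) + 1) * (2 / (P ^ 5 * P ^ n)) :=
            mul_le_mul_of_nonneg_left h2 (by positivity)
        _ = ((48 * (L : ℝ) + 1) * 2) / P ^ 5 * (1 / P ^ n) := by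
            field_simp
        _ ≤ 1 * (1 / 2) ^ n := by
            apply mul_le_mul _ h3 (by positivity) (by norm_num)
            rw [div_le_one (by positivity)]
            exact h4
        _ = (1 / 2) ^ n := one_mul _
    hAm := by
      intro n
      push_cast
      have h1 : ∀ j ∈ range n, ((25 * (L : ℝ) + 1) *
          (if j < 10 then (1 : ℝ) else (1 / 2) ^ j / (25 * L + 1)) +
          (if j < 10 then 48 * (L : ℝ) + 1 else (1 / 2) ^ j)) ≤
          (if j < 10 then (25 * (L : ℝ) + 1) + (48 * L + 1) else 0) + 2 * (1 / 2) ^ j := by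
        intro j _
        have h2 : (0 : ℝ) ≤ (1 / 2) ^ j := by positivity
        split_ifs
        · linarith
        · have h3 : (25 * (L : ℝ) + 1) * ((1 / 2) ^ j / (25 * L + 1)) = (1 / 2) ^ j := by
            field_simp
          rw [h3]
          linarith
      have h4 : ∑ j ∈ range n, (if j < 10 then (25 * (L : ℝ) + 1) + (48 * L + 1) else 0) ≤
          10 * ((25 * L + 1) + (48 * L + 1)) := by
        rw [← Finset.sum_filter, Finset.sum_const, nsmul_eq_mul]
        apply mul_le_mul_of_nonneg_right _ (by positivity)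
        have h5 : (range n).filter (fun j => j < 10) ⊆ range 10 := by
          intro j hj
          rw [Finset.mem_range]
          exact (Finset.mem_filter.mp hj).2
        have h6 := Finset.card_le_card h5
        rw [Finset.card_range] at h6
        exact_mod_cast h6
      have h7 := Finset.sum_le_sum h1
      have h7' : ∑ j ∈ range n, ((if j < 10 then (25 * (L : ℝ) + 1) + (48 * L + 1) else 0) +
          2 * (1 / 2) ^ j) =
          ∑ j ∈ range n, (if j < 10 then (25 * (L : ℝ) + 1) + (48 * L + 1) else 0) +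
          2 * ∑ j ∈ range n, (1 / 2) ^ j := by
        rw [Finset.sum_add_distrib, ← Finset.mul_sum]
      rw [h7'] at h7
      have h8 := hgeo n
      linarith
  }
  refine ⟨p, ?_⟩
  change √d * ((12 * (L : ℝ) + 1 + (48 * L + 1) + (10 * ((25 * L + 1) + (48 * L + 1)) + 4)) +
    25 * (((10 : ℕ) : ℝ) * (((25 * L : ℕ) : ℝ) + 1) + 1)) + (48 * L + 1) ≤ 7200 * L * √d
  push_cast
  have h1 : (12 * (L : ℝ) + 1 + (48 * L + 1) + (10 * ((25 * L + 1) + (48 * L + 1)) + 4)) +
    25 * (10 * (25 * L + 1) + 1) ≤ 7100 * L := by linarith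
  have h2 : 48 * (L : ℝ) + 1 ≤ 100 * L * √d := by nlinarith
  nlinarith

end Vale.Agent.P262
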