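import Vale.Agent.Lib.P262.Steps
import Vale.Agent.Lib.P262.Params

/-! Main theorem for P262. -/

namespace Vale.Agent.P262

open Finset Real

section

variable {ι : Type*} [Fintype ι] [DecidableEq ι] {d : ℕ} {p : Par d} {v : ι → Fin d → ℝ}
  {lam : Fin d → ℝ}

theorem act_anti_add (q j : ℕ) : act p lam (q + j) ⊆ act p lam q := by
  induction j with
  | zero => exact Finset.Subset.refl _
  | succ j ih => exact (act_anti (q + j)).trans ih

theorem age_ge {q : ℕ} (h : act p lam q = ∅) (j : ℕ) (l : Fin d) :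
    j ≤ age p lam (q + j) l := by
  induction j with
  | zero => exact Nat.zero_le _
  | succ j ih =>
    have h1 : l ∉ act p lam (q + j) := by
      intro h2
      have := act_anti_add q j h2
      rw [h] at this
      exact absurd this (Finset.notMem_empty l)
    rw [← add_assoc, age_succ h1]
    omega

/-- far enough everything is dormant and small -/
theorem exists_late {δ : ℝ} (hδ : 0 < δ) :
    ∃ Q, act p lam Q = ∅ ∧ ∀ i, p.Θ (age p lam Q i) < δ := by
  have hK := p.hK
  have hK0 := p.K_pos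
  have hΛ := p.Λ_pos
  -- all dormant
  obtain ⟨M, hM⟩ : ∃ M : ℝ, ∀ l, lam l ≤ M := by
    obtain ⟨M, hM⟩ := (Set.finite_range lam).bddAbove
    exact ⟨M, fun l => hM (Set.mem_range_self l)⟩
  obtain ⟨Q1, hQ1⟩ := pow_unbounded_of_one_lt (M / (2 ^ (p.ℓ + 1) * p.Λ)) (by norm_num : (1 : ℝ) < 2)
  have hact : act p lam Q1 = ∅ := by
    rw [Finset.eq_empty_iff_forall_notMem]
    intro l hl
    rw [mem_act] at hl
    rw [div_lt_iff₀ (by positivity)] at hQ1
    have h1 : (2 : ℝ) ^ Q1 ≤ 2 ^ (Q1 * (p.ℓ + 1)) := by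
      apply pow_le_pow_right₀ (by norm_num)
      nlinarith
    have h2 := hM l
    have h3 : 2 ^ Q1 * (2 ^ (p.ℓ + 1) * p.Λ) ≤ 2 ^ (Q1 * (p.ℓ + 1)) * (2 ^ (p.ℓ + 1) * p.Λ) :=
      mul_le_mul_of_nonneg_right h1 (by positivity)
    linarith
  -- small
  obtain ⟨n1, hn1⟩ := exists_pow_lt_of_lt_one (show 0 < δ / (2 * (2 ^ (p.ℓ + 1) * p.Λ)) by positivity)
    (show 1 / p.K < 1 by rw [div_lt_one hK0]; exact hK)
  refine ⟨Q1 + n1, ?_, ?_⟩
  · have := act_anti_add (p := p) (lam := lam) Q1 n1
    rw [hact] at this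
    exact Finset.subset_empty.mp this
  · intro i
    have h1 := age_ge hact n1 i
    have h2 : p.Θ (age p lam (Q1 + n1) i) ≤ p.Θ n1 := by
      unfold Par.Θ
      apply div_le_div_of_nonneg_left (by positivity) (by positivity)
      exact pow_le_pow_right₀ hK.le h1
    refine lt_of_le_of_lt h2 ?_
    unfold Par.Θ
    rw [one_div, inv_pow, lt_div_iff₀ (by positivity)] at hn1
    rw [div_eq_mul_inv, mul_comm]
    exact hn1

omit [DecidableEq ι] in
theorem exists_gap (v : ι → Fin d → ℝ) : ∃ δ : ℝ, 0 < δ ∧ ∀ a i, v a i ^ 2 < δ → v a i = 0 := by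
  classical
  set s := (univ : Finset (ι × Fin d)).filter (fun q => v q.1 q.2 ≠ 0) with hs
  rcases s.eq_empty_or_nonempty with h | h
  · refine ⟨1, one_pos, fun a i _ => ?_⟩
    by_contra hne
    have : (a, i) ∈ s := by simp [hs, hne]
    rw [h] at this
    exact absurd this (Finset.notMem_empty _)
  · obtain ⟨q, hq, hmin⟩ := Finset.exists_min_image s (fun q => v q.1 q.2 ^ 2) h
    refine ⟨v q.1 q.2 ^ 2, ?_, fun a i hlt => ?_⟩
    · have := (Finset.mem_filter.mp hq).2
      positivity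
    · by_contra hne
      have h1 : (a, i) ∈ s := by simp [hs, hne]
      exact absurd hlt (not_lt.mpr (hmin (a, i) h1))

/-- the theorem for a family with diagonal energy matrix -/
theorem diag_case (hv : ∀ a, ∑ k, v a k ^ 2 ≤ 1) (hsum : ∀ k, ∑ a, v a k = 0)
    (hlam : ∀ l k, en v univ l k = if l = k then lam l else 0) {S : Set (Fin d → ℝ)} {B : ℝ}
    (hS : ∀ x, nrm x ≤ B → x ∈ S)
    (hB : √d * (p.Am + 25 * (p.n0 * (p.ℓ + 1) + 1)) + p.hs ≤ B) : Adm v S univ 0 := by
  have hhs := p.hhs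
  have hr := p.hr
  obtain ⟨δ, hδ, hgap⟩ := exists_gap v
  obtain ⟨Q, hQ1, hQ2⟩ := exists_late (p := p) (lam := lam) hδ
  have hbase : ∀ V x y, Node0 p v lam Q V x y → Adm v S V x := by
    intro V x y h
    have hzero : ∀ a ∈ V, v a = 0 := by
      intro a ha
      funext i
      apply hgap
      have hi : i ∉ act p lam Q := by rw [hQ1]; exact Finset.notMem_empty i
      have h1 := h.hD i hi
      have h2 : v a i ^ 2 ≤ ∑ a ∈ V, v a i ^ 2 :=
        Finset.single_le_sum (f := fun a => v a i ^ 2) (fun i _ => sq_nonneg _) ha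
      have h3 := hQ2 i
      linarith
    apply adm_small
    intro U hU
    rw [Finset.sum_eq_zero (fun a ha => hzero a (hU ha)), add_zero]
    apply hS
    have := h.ix.nrm_le (by omega)
    linarith
  have key : ∀ j, j ≤ Q → ∀ V x y, Node0 p v lam (Q - j) V x y → Adm v S V x := by
    intro j
    induction j with
    | zero =>
      intro _ V x y h
      rw [Nat.sub_zero] at h
      exact hbase V x y h
    | succ j ih =>
      intro hj V x y h
      refine stepC hv hS hB (q := Q - (j + 1)) ?_ h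
      have h2 : Q - (j + 1) + 1 = Q - j := by omega
      rw [h2]
      exact ih (by omega)
  have h0 := key Q le_rfl univ 0 0
  rw [Nat.sub_self] at h0
  apply h0
  have hI : Inv p lam 0 0 0 := by
    refine ⟨fun l _ => ?_, fun _ => 0, fun i _ => ?_, ?_⟩
    · simp only [Pi.zero_apply, abs_zero]
      linarith
    · simp only [Pi.zero_apply, sub_zero, abs_zero]
      unfold bA
      have e0 : age p lam 0 i = 0 := rfl
      rw [e0, Finset.sum_range_zero]
      push_cast
      linarith
    · have h1 : ∑ i ∈ (act p lam 0)ᶜ, (0 : ℝ) ^ 2 / (bn p lam 0 0 i + 1) = 0 := by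
        apply Finset.sum_eq_zero
        intro i _
        simp
      rw [h1]
      exact mul_nonneg (by norm_num) (Finset.sum_nonneg fun i _ => bn_nonneg 0 0 i)
  refine ⟨fun k => ?_, hI, hI, fun l _ k => ?_, fun i hi => ?_⟩
  · simp only [Pi.zero_apply, hsum k, add_zero]
  · rw [hlam l k]
    have h1 : mu p lam 0 0 l = lam l := by
      unfold mu
      simp
    rw [h1, sub_self, abs_zero]
    have := p.ρ_nonneg
    positivity
  · have h1 : ∑ a, v a i ^ 2 = lam i := by
      have := hlam i i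
      simp only [if_true] at this
      rw [← this]
      unfold en
      apply Finset.sum_congr rfl
      intro a _
      ring
    rw [h1]
    rw [mem_act, not_le] at hi
    have e0 : age p lam 0 i = 0 := rfl
    rw [e0]
    unfold Par.Θ
    have hΛ := p.Λ_pos
    have h2 : 0 < 2 ^ (p.ℓ + 1) * p.Λ := by positivity
    simp only [zero_mul, pow_zero, mul_one] at hi
    rw [pow_zero, div_one]
    linarith

end

theorem clog_bound (d : ℕ) (hd : 1 ≤ d) :
    ((Nat.clog 2 (d + 2) + 20 : ℕ) : ℝ) ≤ 25 * (1 + Real.log d) := by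
  have hd1 : (1 : ℝ) ≤ d := by exact_mod_cast hd
  have hlog0 : 0 ≤ Real.log d := Real.log_nonneg hd1
  set m := Nat.clog 2 (d + 2) with hm
  have hm1 : 1 ≤ m := Nat.clog_pos (by norm_num) (by omega)
  have h1 : 2 ^ (m - 1) < d + 2 := by
    have := Nat.pow_pred_clog_lt_self (b := 2) (by norm_num) (x := d + 2) (by omega)
    exact this
  have h2 : (2 : ℝ) ^ (m - 1) ≤ 3 * d := by
    have h3 : 2 ^ (m - 1) ≤ 3 * d := by omega
    exact_mod_cast h3
  have h4 : ((m - 1 : ℕ) : ℝ) * Real.log 2 ≤ Real.log 3 + Real.log d := by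
    have h5 := Real.log_le_log (by positivity) h2
    rw [Real.log_pow, Real.log_mul (by norm_num) (by positivity)] at h5
    exact h5
  have h6 := Real.log_two_gt_d9
  have h7 : Real.log 3 ≤ 2 := by
    have := Real.log_le_sub_one_of_pos (show (0 : ℝ) < 3 by norm_num)
    linarith
  have h8 : ((m - 1 : ℕ) : ℝ) = (m : ℝ) - 1 := by
    rw [Nat.cast_sub hm1]
    simp
  rw [h8] at h4
  have h9 : (1 : ℝ) ≤ m := by exact_mod_cast hm1
  have h10 : ((m : ℝ) - 1) * (1 / 2) ≤ 2 + Real.log d := by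
    have : ((m : ℝ) - 1) * (1 / 2) ≤ ((m : ℝ) - 1) * Real.log 2 :=
      mul_le_mul_of_nonneg_left (by linarith) (by linarith)
    linarith
  push_cast
  linarith

/-- the energy operator can be diagonalised -/
theorem exists_basis (d : ℕ) {N : ℕ} (v : Fin N → EuclideanSpace ℝ (Fin d)) :
    ∃ (b : OrthonormalBasis (Fin d) ℝ (EuclideanSpace ℝ (Fin d))) (lam : Fin d → ℝ),
      ∀ l k, ∑ a, inner ℝ (b l) (v a) * inner ℝ (b k) (v a) = if l = k then lam l else 0 := by
  let T : EuclideanSpace ℝ (Fin d) →ₗ[ℝ] EuclideanSpace ℝ (Fin d) :=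
    { toFun := fun x => ∑ a, (inner ℝ (v a) x) • v a
      map_add' := by
        intro x y
        simp only [inner_add_right, add_smul, Finset.sum_add_distrib]
      map_smul' := by
        intro c x
        simp only [inner_smul_right, RingHom.id_apply, Finset.smul_sum, mul_smul] }
  have hT : T.IsSymmetric := by
    intro x y
    change inner ℝ (∑ a, (inner ℝ (v a) x) • v a) y = inner ℝ x (∑ a, (inner ℝ (v a) y) • v a)
    rw [sum_inner, inner_sum]
    apply Finset.sum_congr rfl
    intro a _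
    rw [real_inner_smul_left, real_inner_smul_right, real_inner_comm x (v a)]
    ring
  have hfin : Module.finrank ℝ (EuclideanSpace ℝ (Fin d)) = d := by simp
  refine ⟨hT.eigenvectorBasis hfin, hT.eigenvalues hfin, fun l k => ?_⟩
  have h1 : ∑ a, inner ℝ (hT.eigenvectorBasis hfin l) (v a) *
      inner ℝ (hT.eigenvectorBasis hfin k) (v a) =
      inner ℝ (hT.eigenvectorBasis hfin l) (T (hT.eigenvectorBasis hfin k)) := by
    change _ = inner ℝ (hT.eigenvectorBasis hfin l)
      (∑ a, (inner ℝ (v a) (hT.eigenvectorBasis hfin k)) • v a)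
    rw [inner_sum]
    apply Finset.sum_congr rfl
    intro a _
    rw [real_inner_smul_right, real_inner_comm (v a) (hT.eigenvectorBasis hfin k)]
    ring
  have h2 : T (hT.eigenvectorBasis hfin k) =
      (hT.eigenvalues hfin k) • (hT.eigenvectorBasis hfin k) :=
    hT.apply_eigenvectorBasis hfin k
  rw [h1, h2, real_inner_smul_right,
    orthonormal_iff_ite.mp (hT.eigenvectorBasis hfin).orthonormal l k]
  split_ifs with h
  · rw [h, mul_one]
  · rw [mul_zero]

/-- coordinates in an orthonormal basis -/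
noncomputable def crd {d : ℕ} (b : OrthonormalBasis (Fin d) ℝ (EuclideanSpace ℝ (Fin d)))
    (x : EuclideanSpace ℝ (Fin d)) : Fin d → ℝ := fun k => inner ℝ (b k) x

theorem nrm_crd {d : ℕ} (b : OrthonormalBasis (Fin d) ℝ (EuclideanSpace ℝ (Fin d)))
    (x : EuclideanSpace ℝ (Fin d)) : nrm (crd b x) = ‖x‖ := by
  have h1 : nrm (crd b x) ^ 2 = ‖x‖ ^ 2 := by
    rw [nrm_sq]
    have h2 := b.sum_sq_norm_inner_right x
    simp only [Real.norm_eq_abs, sq_abs] at h2
    exact h2
  have h3 := nrm_nonneg (crd b x)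
  have h4 := norm_nonneg x
  exact (sq_eq_sq₀ h3 h4).mp h1

theorem crd_sum {d : ℕ} (b : OrthonormalBasis (Fin d) ℝ (EuclideanSpace ℝ (Fin d)))
    {ι : Type*} (s : Finset ι) (v : ι → EuclideanSpace ℝ (Fin d)) :
    ∑ a ∈ s, crd b (v a) = crd b (∑ a ∈ s, v a) := by
  funext k
  rw [Finset.sum_apply]
  unfold crd
  rw [inner_sum]

/-- Orderings with small partial sums, in a Euclidean space. -/
theorem steinitz_list (d : ℕ) (hd : 1 ≤ d) {N : ℕ} (v : Fin N → EuclideanSpace ℝ (Fin d))
    (hv : ∀ a, ‖v a‖ ≤ 1) (hsum : ∑ a, v a = 0) :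
    ∃ l : List (Fin N), l.Nodup ∧ l.toFinset = univ ∧
      ∀ k : ℕ, ‖((l.take k).map v).sum‖ ≤ 180000 * (√d * (1 + Real.log d)) := by
  have hd1 : (1 : ℝ) ≤ d := by exact_mod_cast hd
  set L := Nat.clog 2 (d + 2) + 20 with hL
  have hLpow : 2 ^ 20 * (d + 2) ≤ 2 ^ L := by
    rw [hL, pow_add, mul_comm]
    apply Nat.mul_le_mul_right
    exact Nat.le_pow_clog (by norm_num) _
  obtain ⟨p, hp⟩ := exists_par d L hd hLpow
  have hLb : (L : ℝ) ≤ 25 * (1 + Real.log d) := clog_bound d hd
  have hBB : 7200 * (L : ℝ) * √d ≤ 180000 * (√d * (1 + Real.log d)) := by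
    have := mul_le_mul_of_nonneg_right hLb (Real.sqrt_nonneg (d : ℝ))
    linarith
  obtain ⟨b, lam, hdiag⟩ := exists_basis d v
  have hvv : ∀ a, ∑ k, crd b (v a) k ^ 2 ≤ 1 := by
    intro a
    rw [← nrm_sq, nrm_crd]
    exact pow_le_one₀ (norm_nonneg _) (hv a)
  have hsum' : ∀ k, ∑ a, crd b (v a) k = 0 := by
    intro k
    unfold crd
    rw [← inner_sum, hsum, inner_zero_right]
  obtain ⟨l, hl1, hl2, hl3⟩ := diag_case (p := p) (lam := lam) (v := fun a => crd b (v a))
    hvv hsum' hdiag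
    (S := {x | nrm x ≤ 7200 * L * √d}) (B := 7200 * L * √d) (fun x hx => hx) hp
  refine ⟨l, hl1, hl2, fun k => ?_⟩
  have h1 := hl3 k
  rw [zero_add] at h1
  have hnd : (l.take k).Nodup := (List.take_sublist k l).nodup hl1
  rw [sum_map_of_nodup _ _ hnd, crd_sum] at h1
  rw [sum_map_of_nodup v _ hnd, ← nrm_crd b]
  exact le_trans h1 hBB

/-- from a list to a permutation -/
theorem steinitz_perm (d : ℕ) (hd : 1 ≤ d) {N : ℕ} (v : Fin N → EuclideanSpace ℝ (Fin d))
    (hv : ∀ a, ‖v a‖ ≤ 1) (hsum : ∑ a, v a = 0) :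
    ∃ s : Equiv.Perm (Fin N), ∀ k : ℕ,
      ‖∑ i ∈ univ.filter (fun i : Fin N => (i : ℕ) < k), v (s i)‖ ≤
        180000 * (√d * (1 + Real.log d)) := by
  obtain ⟨l, hl1, hl2, hl3⟩ := steinitz_list d hd v hv hsum
  have hmem : ∀ x, x ∈ l := by
    intro x
    rw [← List.mem_toFinset, hl2]
    exact Finset.mem_univ x
  have hlen : l.length = N := by
    rw [← List.toFinset_card_of_nodup hl1, hl2, Finset.card_univ, Fintype.card_fin]
  set e := hl1.getEquivOfForallMemList l hmem with he
  set s : Equiv.Perm (Fin N) := (finCongr hlen.symm).trans e with hs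
  refine ⟨s, fun k => ?_⟩
  have h1 : List.ofFn (fun i : Fin N => v (s i)) = l.map v := by
    apply List.ext_getElem
    · simp [hlen]
    · intro n h2 h3
      simp [hs, he]
  rw [← List.sum_take_ofFn, h1, ← List.map_take]
  exact hl3 k

end Vale.Agent.P262
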