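import Mathlib

/-! Orderings with controlled prefix sums, for P262. -/

namespace Vale.Agent.P262

open Finset

section Adm

variable {ι : Type*} [DecidableEq ι] {E : Type*} [AddCommGroup E]

/-- `V` can be traversed, starting from `x`, with all partial sums in `S` -/
def Adm (v : ι → E) (S : Set E) (V : Finset ι) (x : E) : Prop :=
  ∃ l : List ι, l.Nodup ∧ l.toFinset = V ∧ ∀ k : ℕ, x + ((l.take k).map v).sum ∈ S

theorem sum_map_of_nodup (v : ι → E) (l : List ι) (h : l.Nodup) :
    (l.map v).sum = ∑ a ∈ l.toFinset, v a := by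
  rw [List.sum_toFinset v h]

theorem adm_small {v : ι → E} {S : Set E} {V : Finset ι} {x : E}
    (h : ∀ U ⊆ V, x + ∑ a ∈ U, v a ∈ S) : Adm v S V x := by
  refine ⟨V.toList, V.nodup_toList, V.toList_toFinset, fun k => ?_⟩
  have h1 : (V.toList.take k).Nodup := (List.take_sublist k _).nodup V.nodup_toList
  rw [sum_map_of_nodup v _ h1]
  apply h
  intro a ha
  rw [List.mem_toFinset] at ha
  exact Finset.mem_toList.mp (List.mem_of_mem_take ha)

theorem adm_union {v : ι → E} {S : Set E} {V W : Finset ι} {x : E} (hd : Disjoint V W)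
    (h1 : Adm v S V x) (h2 : Adm v S W (x + ∑ a ∈ V, v a)) : Adm v S (V ∪ W) x := by
  obtain ⟨l1, hn1, ht1, hs1⟩ := h1
  obtain ⟨l2, hn2, ht2, hs2⟩ := h2
  refine ⟨l1 ++ l2, ?_, ?_, ?_⟩
  · rw [List.nodup_append]
    refine ⟨hn1, hn2, ?_⟩
    intro a ha b hb hab
    subst hab
    have h3 : a ∈ V := by rw [← ht1]; exact List.mem_toFinset.mpr ha
    have h4 : a ∈ W := by rw [← ht2]; exact List.mem_toFinset.mpr hb
    exact Finset.disjoint_left.mp hd h3 h4
  · rw [List.toFinset_append, ht1, ht2]
  · intro k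
    rw [List.take_append, List.map_append, List.sum_append]
    rcases le_total k l1.length with hk | hk
    · have h0 : k - l1.length = 0 := Nat.sub_eq_zero_of_le hk
      rw [h0, List.take_zero, List.map_nil, List.sum_nil, add_zero]
      exact hs1 k
    · rw [List.take_of_length_le hk, sum_map_of_nodup v l1 hn1, ht1, ← add_assoc]
      exact hs2 _

end Adm

end Vale.Agent.P262
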