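import Vale.Agent.Lib.P262.Split
import Vale.Agent.Lib.P262.Order

/-! Invariants of the end points in the recursion of P262. -/

namespace Vale.Agent.P262

open Finset Real

/-- Euclidean norm of a coordinate vector -/
noncomputable def nrm {d : ℕ} (x : Fin d → ℝ) : ℝ :=
  ‖(WithLp.toLp 2 x : EuclideanSpace ℝ (Fin d))‖

theorem nrm_add_le {d : ℕ} (x y : Fin d → ℝ) : nrm (x + y) ≤ nrm x + nrm y := by
  unfold nrm
  rw [WithLp.toLp_add]
  exact norm_add_le _ _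

theorem nrm_sq {d : ℕ} (x : Fin d → ℝ) : nrm x ^ 2 = ∑ i, x i ^ 2 := by
  unfold nrm
  rw [EuclideanSpace.norm_sq_eq]
  simp

theorem nrm_nonneg {d : ℕ} (x : Fin d → ℝ) : 0 ≤ nrm x := norm_nonneg _

theorem nrm_le_of_sq {d : ℕ} (x : Fin d → ℝ) {B : ℝ} (hB : 0 ≤ B) (h : ∑ i, x i ^ 2 ≤ B ^ 2) :
    nrm x ≤ B := by
  rw [← nrm_sq] at h
  exact abs_le_of_sq_le_sq' h hB |>.2

theorem nrm_sum_le {ι : Type*} {d : ℕ} (v : ι → Fin d → ℝ) (U : Finset ι) :
    nrm (∑ a ∈ U, v a) ≤ ∑ a ∈ U, nrm (v a) := by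
  unfold nrm
  rw [WithLp.toLp_sum]
  exact norm_sum_le _ _

/-- invariant on the dormant coordinates -/
def Dor {d : ℕ} (E : Finset (Fin d)) (A n : Fin d → ℝ) (x : Fin d → ℝ) : Prop :=
  ∃ σ : Fin d → ℝ, (∀ i, i ∉ E → |x i - σ i| ≤ A i) ∧
    ∑ i ∈ Eᶜ, σ i ^ 2 / (n i + 1) ≤ 600 * ∑ i ∈ Eᶜ, n i

theorem Dor.mono {d : ℕ} {E E' : Finset (Fin d)} {A A' n n' : Fin d → ℝ} {x : Fin d → ℝ}
    (hE : E' ⊆ E) (h : Dor E A n x) (hn0 : ∀ i, 0 ≤ n i) (h1 : ∀ i, i ∉ E → A i ≤ A' i)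
    (h2 : ∀ i, i ∉ E → n i ≤ n' i) (h2' : ∀ i, 0 ≤ n' i)
    (h3 : ∀ i, i ∈ E → i ∉ E' → |x i| ≤ A' i) : Dor E' A' n' x := by
  obtain ⟨σ, hσ1, hσ2⟩ := h
  refine ⟨fun i => if i ∈ E then 0 else σ i, ?_, ?_⟩
  · intro i hi
    by_cases hiE : i ∈ E
    · simp only [hiE, if_true, sub_zero]
      exact h3 i hiE hi
    · simp only [hiE, if_false]
      exact (hσ1 i hiE).trans (h1 i hiE)
  · have hsub : Eᶜ ⊆ E'ᶜ := Finset.compl_subset_compl.mpr hE
    calc ∑ i ∈ E'ᶜ, (if i ∈ E then 0 else σ i) ^ 2 / (n' i + 1) =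
          ∑ i ∈ Eᶜ, (if i ∈ E then 0 else σ i) ^ 2 / (n' i + 1) := by
          symm
          apply Finset.sum_subset hsub
          intro i _ hi
          rw [Finset.mem_compl, not_not] at hi
          simp [hi]
      _ ≤ ∑ i ∈ Eᶜ, σ i ^ 2 / (n i + 1) := by
          apply Finset.sum_le_sum
          intro i hi
          rw [Finset.mem_compl] at hi
          simp only [hi, if_false]
          have h4 := h2 i hi
          have h5 := hn0 i
          exact div_le_div_of_nonneg_left (sq_nonneg _) (by linarith) (by linarith)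
      _ ≤ 600 * ∑ i ∈ Eᶜ, n i := hσ2
      _ ≤ 600 * ∑ i ∈ E'ᶜ, n' i := by
          apply mul_le_mul_of_nonneg_left _ (by norm_num)
          calc ∑ i ∈ Eᶜ, n i ≤ ∑ i ∈ Eᶜ, n' i :=
                Finset.sum_le_sum fun i hi => h2 i (Finset.mem_compl.mp hi)
            _ ≤ ∑ i ∈ E'ᶜ, n' i := Finset.sum_le_sum_of_subset_of_nonneg hsub
                fun i _ _ => h2' i

theorem Dor.step {d : ℕ} {E Tr : Finset (Fin d)} {A n e : Fin d → ℝ} {x y z ξ : Fin d → ℝ}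
    (hx : Dor E A n x) (hy : Dor E A n y) (hTr : ∀ i ∈ Tr, i ∉ E) (hn : ∀ i, 0 ≤ n i)
    (hξ : ∑ i ∈ Tr, ξ i ^ 2 ≤ 600 * (Tr.card : ℝ))
    (h1 : ∀ i, i ∉ E → i ∈ Tr → |z i - (x i + y i) / 2 - ξ i| ≤ e i)
    (h2 : ∀ i, i ∉ E → i ∉ Tr → |z i - (x i + y i) / 2| ≤ e i) :
    Dor E (fun i => A i + e i) (fun i => n i + if i ∈ Tr then 1 else 0) z := by
  obtain ⟨σ, hσ1, hσ2⟩ := hx
  obtain ⟨ς, hς1, hς2⟩ := hy
  have hTrE : Tr ⊆ Eᶜ := fun i hi => Finset.mem_compl.mpr (hTr i hi)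
  refine ⟨fun i => (σ i + ς i) / 2 + if i ∈ Tr then ξ i else 0, ?_, ?_⟩
  · intro i hi
    have a1 := abs_le.mp (hσ1 i hi)
    have a2 := abs_le.mp (hς1 i hi)
    by_cases hiT : i ∈ Tr
    · have a3 := abs_le.mp (h1 i hi hiT)
      simp only [hiT, if_true]
      rw [abs_le]
      constructor <;> linarith
    · have a3 := abs_le.mp (h2 i hi hiT)
      simp only [hiT, if_false]
      rw [abs_le]
      constructor <;> linarith
  · have hterm : ∀ i ∈ Eᶜ, ((σ i + ς i) / 2 + if i ∈ Tr then ξ i else 0) ^ 2 /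
        ((n i + if i ∈ Tr then 1 else 0) + 1) ≤
        (σ i ^ 2 / (n i + 1)) / 2 + (ς i ^ 2 / (n i + 1)) / 2 +
          (if i ∈ Tr then ξ i ^ 2 else 0) := by
      intro i _
      have hni := hn i
      have hpos : 0 < n i + 1 := by linarith
      have hm : ((σ i + ς i) / 2) ^ 2 / (n i + 1) ≤
          (σ i ^ 2 / (n i + 1)) / 2 + (ς i ^ 2 / (n i + 1)) / 2 := by
        have : (σ i ^ 2 / (n i + 1)) / 2 + (ς i ^ 2 / (n i + 1)) / 2 =
          ((σ i ^ 2 + ς i ^ 2) / 2) / (n i + 1) := by ring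
        rw [this]
        apply div_le_div_of_nonneg_right _ hpos.le
        nlinarith [sq_nonneg (σ i - ς i)]
      by_cases hiT : i ∈ Tr
      · simp only [hiT, if_true]
        set m := (σ i + ς i) / 2
        have h3 : (m + ξ i) ^ 2 / (n i + 1 + 1) ≤ m ^ 2 / (n i + 1) + ξ i ^ 2 := by
          rw [div_add' _ _ _ hpos.ne', div_le_div_iff₀ (by linarith) hpos]
          have h4 : (m ^ 2 + ξ i ^ 2 * (n i + 1)) * (n i + 1 + 1) - (m + ξ i) ^ 2 * (n i + 1) =
            (m - (n i + 1) * ξ i) ^ 2 := by ring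
          have h5 := sq_nonneg (m - (n i + 1) * ξ i)
          linarith
        linarith
      · simp only [hiT, if_false, add_zero]
        exact hm
    calc ∑ i ∈ Eᶜ, ((σ i + ς i) / 2 + if i ∈ Tr then ξ i else 0) ^ 2 /
          ((n i + if i ∈ Tr then 1 else 0) + 1) ≤
          ∑ i ∈ Eᶜ, ((σ i ^ 2 / (n i + 1)) / 2 + (ς i ^ 2 / (n i + 1)) / 2 +
          (if i ∈ Tr then ξ i ^ 2 else 0)) := Finset.sum_le_sum hterm
      _ = (∑ i ∈ Eᶜ, σ i ^ 2 / (n i + 1)) / 2 + (∑ i ∈ Eᶜ, ς i ^ 2 / (n i + 1)) / 2 +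
          ∑ i ∈ Tr, ξ i ^ 2 := by
          rw [Finset.sum_add_distrib, Finset.sum_add_distrib, Finset.sum_div, Finset.sum_div,
            Finset.sum_ite_mem, Finset.inter_eq_right.mpr hTrE]
      _ ≤ 600 * (∑ i ∈ Eᶜ, n i + Tr.card) := by linarith
      _ = 600 * ∑ i ∈ Eᶜ, (n i + if i ∈ Tr then 1 else 0) := by
          rw [Finset.sum_add_distrib, Finset.sum_ite_mem, Finset.inter_eq_right.mpr hTrE,
            Finset.sum_const, nsmul_eq_mul, mul_one]

/-- norm bound from the invariants -/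
theorem Dor.nrm_le {d : ℕ} {E : Finset (Fin d)} {A n : Fin d → ℝ} {x : Fin d → ℝ}
    (h : Dor E A n x) {Am T : ℝ} (hT0 : 0 ≤ T) (hAm : 0 ≤ Am) (hE : ∀ i ∈ E, |x i| ≤ Am)
    (hA : ∀ i, i ∉ E → A i ≤ Am) (hn0 : ∀ i, 0 ≤ n i) (hn : ∀ i, n i ≤ T) :
    nrm x ≤ √d * (Am + 25 * (T + 1)) := by
  obtain ⟨σ, hσ1, hσ2⟩ := h
  set p : Fin d → ℝ := fun i => if i ∈ E then x i else x i - σ i with hp
  set s : Fin d → ℝ := fun i => if i ∈ E then 0 else σ i with hs
  have hx : x = p + s := by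
    funext i
    simp only [hp, hs, Pi.add_apply]
    split_ifs <;> ring
  have hsd : √(d : ℝ) ^ 2 = d := Real.sq_sqrt (by positivity)
  have h1 : nrm p ≤ √d * Am := by
    apply nrm_le_of_sq _ (by positivity)
    rw [mul_pow, hsd]
    calc ∑ i, p i ^ 2 ≤ ∑ _i : Fin d, Am ^ 2 := by
          apply Finset.sum_le_sum
          intro i _
          rw [← sq_abs]
          apply pow_le_pow_left₀ (abs_nonneg _)
          simp only [hp]
          split_ifs with hi
          · exact hE i hi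
          · exact (hσ1 i hi).trans (hA i hi)
      _ = d * Am ^ 2 := by rw [Finset.sum_const, Finset.card_univ, Fintype.card_fin, nsmul_eq_mul]
  have h2 : nrm s ≤ √d * (25 * (T + 1)) := by
    apply nrm_le_of_sq _ (by positivity)
    rw [mul_pow, hsd]
    have h3 : ∑ i, s i ^ 2 = ∑ i ∈ Eᶜ, σ i ^ 2 := by
      rw [← Finset.sum_compl_add_sum E]
      have h4 : ∑ i ∈ E, s i ^ 2 = 0 := by
        apply Finset.sum_eq_zero
        intro i hi
        simp [hs, hi]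
      rw [h4, add_zero]
      apply Finset.sum_congr rfl
      intro i hi
      rw [Finset.mem_compl] at hi
      simp [hs, hi]
    rw [h3]
    calc ∑ i ∈ Eᶜ, σ i ^ 2 ≤ ∑ i ∈ Eᶜ, (T + 1) * (σ i ^ 2 / (n i + 1)) := by
          apply Finset.sum_le_sum
          intro i _
          have h5 := hn0 i
          have h6 := hn i
          rw [mul_div_assoc', le_div_iff₀ (by linarith)]
          have := sq_nonneg (σ i)
          nlinarith
      _ = (T + 1) * ∑ i ∈ Eᶜ, σ i ^ 2 / (n i + 1) := by rw [Finset.mul_sum]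
      _ ≤ (T + 1) * (600 * ∑ i ∈ Eᶜ, n i) := mul_le_mul_of_nonneg_left hσ2 (by linarith)
      _ ≤ (T + 1) * (600 * (d * T)) := by
          apply mul_le_mul_of_nonneg_left _ (by linarith)
          apply mul_le_mul_of_nonneg_left _ (by norm_num)
          calc ∑ i ∈ Eᶜ, n i ≤ ∑ _i ∈ Eᶜ, T := Finset.sum_le_sum fun i _ => hn i
            _ = (Eᶜ.card : ℝ) * T := by rw [Finset.sum_const, nsmul_eq_mul]
            _ ≤ d * T := by
                apply mul_le_mul_of_nonneg_right _ hT0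
                have := Finset.card_le_univ Eᶜ
                rw [Fintype.card_fin] at this
                exact_mod_cast this
      _ ≤ d * (25 * (T + 1)) ^ 2 := by
          have hd : (0 : ℝ) ≤ d := by positivity
          have h7 : (T + 1) * (600 * T) ≤ (25 * (T + 1)) ^ 2 := by nlinarith
          calc (T + 1) * (600 * (d * T)) = d * ((T + 1) * (600 * T)) := by ring
            _ ≤ d * (25 * (T + 1)) ^ 2 := mul_le_mul_of_nonneg_left h7 hd
  calc nrm x = nrm (p + s) := by rw [← hx]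
    _ ≤ nrm p + nrm s := nrm_add_le _ _
    _ ≤ √d * (Am + 25 * (T + 1)) := by rw [mul_add]; exact add_le_add h1 h2

end Vale.Agent.P262
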