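import Vale.Agent.Lib.P262.Invariant

/-! The recursion over scales for P262. -/

namespace Vale.Agent.P262

open Finset Real

/-- numerical parameters of the recursion -/
structure Par (d : ℕ) where
  (r hs Λ ρ τ K Am : ℝ)
  (ℓ n0 : ℕ)
  (κ η : ℕ → ℝ)
  hr : 0 ≤ r
  hr1 : 4 * exp (1 / 64) * (2 * d + 1) ≤ exp (r / 16)
  hhs : 0 ≤ hs
  hρ : (ρ + hs) / 2 + (d + 2) ^ 2 ≤ ρ
  hΛ1 : (20 * (d * (r + 1 + 2 * hs))) ^ 2 ≤ Λ
  hΛ2 : 2 * (d * (r + 1 + 2 * hs) * (ρ + hs)) ≤ Λ
  hΛ3 : 4 * (ρ + hs) ≤ Λ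
  hΛ4 : 16 ≤ Λ
  hK : 1 < K
  hτ : 0 < τ
  hpiv : (3 / 4) ^ ℓ + 4 * ((d + 2) ^ 2 * τ) ≤ 1 / K
  hcnt : (3 / 4) ^ ℓ * (d / τ) + 4 * r ≤ hs
  hn0 : 0 < n0
  hκ0 : ∀ n, 0 ≤ κ n
  hη0 : ∀ n, 0 ≤ η n
  hκ1 : ∀ n, n < n0 → 1 ≤ κ n
  hκ2 : ∀ n, n0 ≤ n → (1 + r * √d) * √(2 * (2 ^ (ℓ + 1) * Λ) / K ^ n) ≤ κ n
  hη1 : ∀ n, n < n0 → hs ≤ η n
  hη2 : ∀ n, n0 ≤ n → hs * √(2 * (2 ^ (ℓ + 1) * Λ) / K ^ n) ≤ η n
  hAm : ∀ n, r + 1 + hs + ∑ j ∈ range n, ((ℓ + 1) * κ j + η j) ≤ Am

namespace Par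

variable {d : ℕ} (p : Par d)

/-- scale of the energy of a dormant coordinate of age `n` -/
noncomputable def Θ (n : ℕ) : ℝ := 2 * (2 ^ (p.ℓ + 1) * p.Λ) / p.K ^ n

theorem Λ_pos : 0 < p.Λ := lt_of_lt_of_le (by norm_num) p.hΛ4

theorem K_pos : 0 < p.K := lt_trans one_pos p.hK

theorem Θ_pos (n : ℕ) : 0 < p.Θ n := by
  have h1 := p.Λ_pos
  have h2 := p.K_pos
  unfold Θ
  positivity

theorem Θ_succ (n : ℕ) : p.Θ (n + 1) = p.Θ n * (1 / p.K) := by
  have h2 := p.K_pos
  unfold Θ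
  rw [pow_succ]
  field_simp
  ring

theorem ρ_nonneg : 0 ≤ p.ρ := by
  have h1 := p.hρ
  have h2 := p.hhs
  have h3 : (0 : ℝ) ≤ ((d : ℝ) + 2) ^ 2 := by positivity
  linarith

end Par

section

variable {ι : Type*} [Fintype ι] [DecidableEq ι] {d : ℕ} (p : Par d) (v : ι → Fin d → ℝ)
  (lam : Fin d → ℝ)

/-- active coordinates in round `q` -/
noncomputable def act (q : ℕ) : Finset (Fin d) :=
  univ.filter (fun l => 2 ^ (p.ℓ + 1) * p.Λ * 2 ^ (q * (p.ℓ + 1)) ≤ lam l)

theorem mem_act {q : ℕ} {l : Fin d} :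
    l ∈ act p lam q ↔ 2 ^ (p.ℓ + 1) * p.Λ * 2 ^ (q * (p.ℓ + 1)) ≤ lam l := by
  simp [act]

/-- number of rounds that a coordinate has been dormant -/
noncomputable def age : ℕ → Fin d → ℕ
  | 0, _ => 0
  | q + 1, l => if l ∈ act p lam q then age q l else age q l + 1

/-- expected energy of an active coordinate -/
noncomputable def mu (q s : ℕ) (l : Fin d) : ℝ := lam l / 2 ^ (q * (p.ℓ + 1) + s)

/-- heavy vectors in round `q` -/
noncomputable def heavy (q : ℕ) : Finset ι :=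
  univ.filter (fun a => ∃ i, i ∉ act p lam q ∧ p.τ * p.Θ (age p lam q i) < v a i ^ 2)

/-- bound for the bounded part of the dormant coordinates -/
noncomputable def bA (q : ℕ) (t : ℝ) (i : Fin d) : ℝ :=
  p.r + 1 + p.hs + ∑ j ∈ range (age p lam q i), ((p.ℓ + 1) * p.κ j + p.η j) +
    t * p.κ (age p lam q i)

/-- number of transitional levels seen so far -/
noncomputable def bn (q s : ℕ) (i : Fin d) : ℝ :=
  if age p lam q i < p.n0 then age p lam q i * (p.ℓ + 1) + s else p.n0 * (p.ℓ + 1)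

/-- invariant of an end point -/
def Inv (q s : ℕ) (x : Fin d → ℝ) : Prop :=
  (∀ l ∈ act p lam q, |x l| ≤ p.r + 1 + p.hs) ∧
    Dor (act p lam q) (bA p lam q s) (bn p lam q s) x

/-- short form of the invariant of a node at the start of a round -/
structure Node0 (q : ℕ) (V : Finset ι) (x y : Fin d → ℝ) : Prop where
  hxy : ∀ k, y k = x k + ∑ a ∈ V, v a k
  ix : Inv p lam q 0 x
  iy : Inv p lam q 0 y
  hM : ∀ l ∈ act p lam q, ∀ k, |en v V l k - if l = k then mu p lam q 0 l else 0| ≤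
    √(mu p lam q 0 l) + p.ρ
  hD : ∀ i, i ∉ act p lam q → ∑ a ∈ V, v a i ^ 2 ≤ p.Θ (age p lam q i)

/-- invariant of a node inside a round -/
structure Node (q s : ℕ) (V : Finset ι) (x y : Fin d → ℝ) : Prop where
  hxy : ∀ k, y k = x k + ∑ a ∈ V, v a k
  ix : Inv p lam q s x
  iy : Inv p lam q s y
  hM : ∀ l ∈ act p lam q, ∀ k, |en v V l k - if l = k then mu p lam q s l else 0| ≤
    √(mu p lam q s l) + p.ρ
  hD : ∀ i, i ∉ act p lam q → ∑ a ∈ V, v a i ^ 2 ≤ p.Θ (age p lam q i)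
  hL : ∀ i, i ∉ act p lam q → ∑ a ∈ V, (if a ∈ heavy p v lam q then 0 else v a i ^ 2) ≤
    ((3 / 4) ^ s + 4 * ((d + 2) ^ 2 * p.τ)) * p.Θ (age p lam q i)
  hH : ∑ a ∈ V, (if a ∈ heavy p v lam q then (1 : ℝ) else 0) ≤
    (3 / 4) ^ s * (d / p.τ) + 4 * p.r

variable {p v lam}

theorem act_anti (q : ℕ) : act p lam (q + 1) ⊆ act p lam q := by
  intro l hl
  rw [mem_act] at hl ⊢
  refine le_trans ?_ hl
  have := p.Λ_pos
  apply mul_le_mul_of_nonneg_left _ (by positivity)
  apply pow_le_pow_right₀ (by norm_num)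
  nlinarith

theorem age_act {q : ℕ} {l : Fin d} (h : l ∈ act p lam q) : age p lam q l = 0 := by
  induction q with
  | zero => rfl
  | succ q ih =>
    have h1 := act_anti q h
    simp only [age, h1, if_true]
    exact ih h1

theorem age_succ {q : ℕ} {l : Fin d} (h : l ∉ act p lam q) :
    age p lam (q + 1) l = age p lam q l + 1 := by
  simp only [age, h, if_false]

theorem age_succ_act {q : ℕ} {l : Fin d} (h : l ∈ act p lam q) :
    age p lam (q + 1) l = 0 := by
  simp only [age, h, if_true]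
  exact age_act h

theorem mu_succ (q s : ℕ) (l : Fin d) : mu p lam q (s + 1) l = mu p lam q s l / 2 := by
  unfold mu
  rw [← add_assoc, pow_succ]
  field_simp

theorem mu_round (q : ℕ) (l : Fin d) : mu p lam (q + 1) 0 l = mu p lam q p.ℓ l / 2 := by
  rw [← mu_succ]
  unfold mu
  congr 2
  ring

theorem le_mu {q s : ℕ} (hs : s ≤ p.ℓ + 1) {l : Fin d} (h : l ∈ act p lam q) :
    p.Λ ≤ mu p lam q s l := by
  rw [mem_act] at h
  unfold mu
  rw [le_div_iff₀ (by positivity)]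
  refine le_trans ?_ h
  have h1 := p.Λ_pos
  have h2 : (2 : ℝ) ^ (q * (p.ℓ + 1) + s) ≤ 2 ^ (p.ℓ + 1) * 2 ^ (q * (p.ℓ + 1)) := by
    rw [← pow_add]
    apply pow_le_pow_right₀ (by norm_num)
    omega
  calc p.Λ * 2 ^ (q * (p.ℓ + 1) + s) ≤ p.Λ * (2 ^ (p.ℓ + 1) * 2 ^ (q * (p.ℓ + 1))) :=
        mul_le_mul_of_nonneg_left h2 h1.le
    _ = 2 ^ (p.ℓ + 1) * p.Λ * 2 ^ (q * (p.ℓ + 1)) := by ring

theorem bn_nonneg (q s : ℕ) (i : Fin d) : 0 ≤ bn p lam q s i := by
  unfold bn
  split_ifs <;> positivity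

theorem Inv.succ {q s : ℕ} {x : Fin d → ℝ} (h : Inv p lam q s x) : Inv p lam q (s + 1) x := by
  obtain ⟨h1, h2⟩ := h
  refine ⟨h1, h2.mono (Finset.Subset.refl _) (bn_nonneg q s) ?_ ?_ (bn_nonneg q (s + 1)) ?_⟩
  · intro i _
    unfold bA
    have := p.hκ0 (age p lam q i)
    push_cast
    linarith
  · intro i _
    unfold bn
    split_ifs
    · push_cast
      linarith
    · exact le_rfl
  · intro i hi hi'
    exact absurd hi hi'

/-- the transitional coordinates of a round -/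
noncomputable def trans (p : Par d) (lam : Fin d → ℝ) (q : ℕ) : Finset (Fin d) :=
  univ.filter (fun i => i ∉ act p lam q ∧ age p lam q i < p.n0)

theorem mem_trans {q : ℕ} {i : Fin d} :
    i ∈ trans p lam q ↔ i ∉ act p lam q ∧ age p lam q i < p.n0 := by
  simp [trans]

theorem bn_step {q s : ℕ} {i : Fin d} (hi : i ∉ act p lam q) :
    bn p lam q s i + (if i ∈ trans p lam q then 1 else 0) = bn p lam q (s + 1) i := by
  unfold bn
  by_cases h : age p lam q i < p.n0
  · have h1 : i ∈ trans p lam q := mem_trans.mpr ⟨hi, h⟩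
    simp only [h, h1, if_true]
    push_cast
    ring
  · have h1 : i ∉ trans p lam q := fun h2 => h (mem_trans.mp h2).2
    simp only [h, h1, if_false, add_zero]

/-- the new end point inside a round -/
theorem Inv.mid {q s : ℕ} {x y z ξ : Fin d → ℝ} (hx : Inv p lam q s x) (hy : Inv p lam q s y)
    (hz : ∀ l ∈ act p lam q, |z l| ≤ p.r + 1 + p.hs)
    (h1 : ∀ i, i ∉ act p lam q → |z i - (x i + y i) / 2 - ξ i| ≤ 1 ∧
      |z i - (x i + y i) / 2 - ξ i| ≤ √(p.Θ (age p lam q i)))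
    (h2 : ∀ i, i ∉ act p lam q → |ξ i| ≤ p.r * √d * √(p.Θ (age p lam q i)))
    (h3 : ∑ i ∈ trans p lam q, ξ i ^ 2 ≤ 600 * ((trans p lam q).card : ℝ)) :
    Inv p lam q (s + 1) z := by
  refine ⟨hz, ?_⟩
  have hstep := Dor.step (z := z) (e := fun i => p.κ (age p lam q i)) hx.2 hy.2
    (fun i hi => (mem_trans.mp hi).1) (bn_nonneg q s) h3 ?_ ?_
  · refine hstep.mono (Finset.Subset.refl _) ?_ ?_ ?_ (bn_nonneg q (s + 1)) ?_
    · intro i
      have := bn_nonneg (p := p) (lam := lam) q s i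
      split_ifs <;> linarith
    · intro i _
      unfold bA
      push_cast
      linarith
    · intro i hi
      rw [bn_step hi]
    · intro i hi hi'
      exact absurd hi hi'
  · intro i hi hT
    have := p.hκ1 _ (mem_trans.mp hT).2
    exact (h1 i hi).1.trans this
  · intro i hi hT
    have h4 : p.n0 ≤ age p lam q i := by
      by_contra h
      exact hT (mem_trans.mpr ⟨hi, not_le.mp h⟩)
    have h5 := p.hκ2 _ h4
    have h6 := (h1 i hi).2
    have h7 := h2 i hi
    have h8 : √(2 * (2 ^ (p.ℓ + 1) * p.Λ) / p.K ^ (age p lam q i)) =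
      √(p.Θ (age p lam q i)) := rfl
    rw [h8] at h5
    have h9 : |z i - (x i + y i) / 2| ≤ |z i - (x i + y i) / 2 - ξ i| + |ξ i| := by
      have := abs_add_le (z i - (x i + y i) / 2 - ξ i) (ξ i)
      rwa [sub_add_cancel] at this
    linarith

/-- transition of an old end point to the next round -/
theorem Inv.next {q : ℕ} {x : Fin d → ℝ} (h : Inv p lam q p.ℓ x) : Inv p lam (q + 1) 0 x := by
  obtain ⟨h1, h2⟩ := h
  refine ⟨fun l hl => h1 l (act_anti q hl), h2.mono (act_anti q) (bn_nonneg q _) ?_ ?_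
    (bn_nonneg (q + 1) 0) ?_⟩
  · intro i hi
    unfold bA
    rw [age_succ hi, Finset.sum_range_succ]
    have e1 := p.hκ0 (age p lam q i)
    have e2 := p.hη0 (age p lam q i)
    have e3 := p.hκ0 (age p lam q i + 1)
    push_cast
    linarith
  · intro i hi
    unfold bn
    rw [age_succ hi]
    by_cases h3 : age p lam q i + 1 < p.n0
    · have h4 : age p lam q i < p.n0 := by omega
      simp only [h3, h4, if_true]
      push_cast
      linarith
    · by_cases h4 : age p lam q i < p.n0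
      · simp only [h3, h4, if_true, if_false]
        have h5 : age p lam q i + 1 = p.n0 := by omega
        rw [← h5]
        push_cast
        linarith
      · simp only [h3, h4, if_false]
        exact le_rfl
  · intro i hi hi'
    unfold bA
    rw [age_succ_act hi, Finset.sum_range_zero]
    have := h1 i hi
    have e3 := p.hκ0 0
    push_cast
    linarith

/-- the new end points at the end of a round -/
theorem Inv.mid_next {q : ℕ} {x y z ξ w : Fin d → ℝ} (hx : Inv p lam q p.ℓ x)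
    (hy : Inv p lam q p.ℓ y)
    (hz : ∀ l ∈ act p lam q, |z l| ≤ p.r + 1 + p.hs)
    (h1 : ∀ i, i ∉ act p lam q → |z i - (x i + y i) / 2 - ξ i - w i / 2| ≤ 1 ∧
      |z i - (x i + y i) / 2 - ξ i - w i / 2| ≤ √(p.Θ (age p lam q i)))
    (hw : ∀ i, i ∉ act p lam q → |w i| ≤ p.hs ∧ |w i| ≤ p.hs * √(p.Θ (age p lam q i)))
    (h2 : ∀ i, i ∉ act p lam q → |ξ i| ≤ p.r * √d * √(p.Θ (age p lam q i)))
    (h3 : ∑ i ∈ trans p lam q, ξ i ^ 2 ≤ 600 * ((trans p lam q).card : ℝ)) :
    Inv p lam (q + 1) 0 z := by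
  refine ⟨fun l hl => hz l (act_anti q hl), ?_⟩
  have hwη : ∀ i, i ∉ act p lam q → |w i| ≤ p.η (age p lam q i) := by
    intro i hi
    by_cases h : age p lam q i < p.n0
    · exact (hw i hi).1.trans (p.hη1 _ h)
    · exact (hw i hi).2.trans (p.hη2 _ (not_lt.mp h))
  have hstep := Dor.step (z := z) (e := fun i => p.κ (age p lam q i) + p.η (age p lam q i)) hx.2 hy.2
    (fun i hi => (mem_trans.mp hi).1) (bn_nonneg q p.ℓ) h3 ?_ ?_
  · refine hstep.mono (act_anti q) ?_ ?_ ?_ (bn_nonneg (q + 1) 0) ?_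
    · intro i
      have := bn_nonneg (p := p) (lam := lam) q p.ℓ i
      split_ifs <;> linarith
    · intro i hi
      unfold bA
      rw [age_succ hi, Finset.sum_range_succ]
      push_cast
      linarith [p.hκ0 (age p lam q i + 1)]
    · intro i hi
      rw [bn_step hi]
      unfold bn
      rw [age_succ hi]
      by_cases h3 : age p lam q i + 1 < p.n0
      · have h4 : age p lam q i < p.n0 := by omega
        simp only [h3, h4, if_true]
        push_cast
        linarith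
      · by_cases h4 : age p lam q i < p.n0
        · simp only [h3, h4, if_true, if_false]
          have h5 : age p lam q i + 1 = p.n0 := by omega
          rw [← h5]
          push_cast
          linarith
        · simp only [h3, h4, if_false]
          exact le_rfl
    · intro i hi hi'
      unfold bA
      rw [age_succ_act hi, Finset.sum_range_zero]
      have := hz i hi
      have e3 := p.hκ0 0
      push_cast
      linarith
  · intro i hi hT
    have e1 := p.hκ1 _ (mem_trans.mp hT).2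
    have e2 := hwη i hi
    have e3 := (h1 i hi).1
    have e4 := abs_nonneg (w i)
    have e5 : |z i - (x i + y i) / 2 - ξ i| ≤
        |z i - (x i + y i) / 2 - ξ i - w i / 2| + |w i / 2| := by
      have := abs_add_le (z i - (x i + y i) / 2 - ξ i - w i / 2) (w i / 2)
      rwa [sub_add_cancel] at this
    rw [abs_div, abs_two] at e5
    linarith
  · intro i hi hT
    have h4 : p.n0 ≤ age p lam q i := by
      by_contra h
      exact hT (mem_trans.mpr ⟨hi, not_le.mp h⟩)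
    have h5 := p.hκ2 _ h4
    have h6 := (h1 i hi).2
    have h7 := h2 i hi
    have h8 : √(2 * (2 ^ (p.ℓ + 1) * p.Λ) / p.K ^ (age p lam q i)) =
      √(p.Θ (age p lam q i)) := rfl
    rw [h8] at h5
    have e2 := hwη i hi
    have e4 := abs_nonneg (w i)
    have h9 : |z i - (x i + y i) / 2| ≤
        |z i - (x i + y i) / 2 - ξ i - w i / 2| + |ξ i| + |w i / 2| := by
      have e5 := abs_add_three (z i - (x i + y i) / 2 - ξ i - w i / 2) (ξ i) (w i / 2)
      have e6 : z i - (x i + y i) / 2 - ξ i - w i / 2 + ξ i + w i / 2 =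
        z i - (x i + y i) / 2 := by ring
      rwa [e6] at e5
    rw [abs_div, abs_two] at h9
    linarith

theorem bA_le (q s : ℕ) (hs : s ≤ p.ℓ + 1) (i : Fin d) : bA p lam q s i ≤ p.Am := by
  have h := p.hAm (age p lam q i + 1)
  rw [Finset.sum_range_succ] at h
  unfold bA
  have e1 := p.hκ0 (age p lam q i)
  have e2 := p.hη0 (age p lam q i)
  have e3 : (s : ℝ) ≤ p.ℓ + 1 := by exact_mod_cast hs
  have e4 := mul_le_mul_of_nonneg_right e3 e1
  linarith

theorem bn_le (q s : ℕ) (hs : s ≤ p.ℓ + 1) (i : Fin d) :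
    bn p lam q s i ≤ p.n0 * (p.ℓ + 1) := by
  unfold bn
  split_ifs with h
  · have e1 : ((age p lam q i : ℕ) : ℝ) + 1 ≤ p.n0 := by exact_mod_cast h
    have e3 : (s : ℝ) ≤ p.ℓ + 1 := by exact_mod_cast hs
    have e4 : (0 : ℝ) ≤ p.ℓ + 1 := by positivity
    nlinarith [mul_le_mul_of_nonneg_right e1 e4]
  · exact le_rfl

theorem Inv.nrm_le {q s : ℕ} {x : Fin d → ℝ} (hs : s ≤ p.ℓ + 1) (h : Inv p lam q s x) :
    nrm x ≤ √d * (p.Am + 25 * (p.n0 * (p.ℓ + 1) + 1)) := by
  have h0 := p.hAm 0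
  rw [Finset.sum_range_zero] at h0
  have h1 := p.hr
  have h2 := p.hhs
  refine Dor.nrm_le h.2 (by positivity) (by linarith) ?_ (fun i _ => bA_le q s hs i)
    (bn_nonneg q s) (bn_le q s hs)
  intro l hl
  have := h.1 l hl
  linarith

end

end Vale.Agent.P262
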