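import Mathlib

/-! Rounding lemma for P262: a derandomised Gram-Schmidt walk with an exponential potential. -/

namespace Vale.Agent.P262

open Finset Real

/-! ### Exit of a line from the cube -/

/-- the time at which coordinate with value `b` and speed `g` leaves `[-1,1]` -/
noncomputable def exitTime (b g : ℝ) : ℝ := (|g| - b * g) / g ^ 2

theorem exitTime_pos {b g : ℝ} (hb : |b| < 1) (hg : g ≠ 0) : 0 < exitTime b g := by
  unfold exitTime
  have h1 : 0 < |g| := abs_pos.mpr hg
  have h2 : b * g ≤ |b| * |g| := by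
    calc b * g ≤ |b * g| := le_abs_self _
      _ = |b| * |g| := abs_mul _ _
  have h3 : |b| * |g| < |g| := by nlinarith
  have h4 : 0 < g ^ 2 := by positivity
  apply div_pos _ h4
  linarith

theorem exitTime_abs {b g : ℝ} (hg : g ≠ 0) : |b + exitTime b g * g| = 1 := by
  unfold exitTime
  have h : b + (|g| - b * g) / g ^ 2 * g = |g| / g := by
    field_simp
    ring
  rw [h, abs_div, abs_abs]
  exact div_self (by positivity)

theorem abs_le_of_le_exitTime {b g t : ℝ} (hb : |b| < 1) (hg : g ≠ 0) (ht0 : 0 ≤ t)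
    (ht : t ≤ exitTime b g) : |b + t * g| ≤ 1 := by
  have hE := exitTime_abs (b := b) hg
  rcases abs_lt.mp hb with ⟨hb1, hb2⟩
  rcases lt_or_gt_of_ne hg with hneg | hpos
  · have h1 : exitTime b g * g ≤ t * g := mul_le_mul_of_nonpos_right ht hneg.le
    have h2 : t * g ≤ 0 := mul_nonpos_of_nonneg_of_nonpos ht0 hneg.le
    rw [abs_le]
    constructor
    · have := neg_abs_le (b + exitTime b g * g)
      rw [hE] at this
      linarith
    · linarith
  · have h1 : t * g ≤ exitTime b g * g := mul_le_mul_of_nonneg_right ht hpos.le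
    have h2 : 0 ≤ t * g := mul_nonneg ht0 hpos.le
    rw [abs_le]
    constructor
    · linarith
    · have := le_abs_self (b + exitTime b g * g)
      rw [hE] at this
      linarith

theorem line_exit {α : Type*} (A : Finset α) (β γ : α → ℝ) (hβ : ∀ a ∈ A, |β a| < 1)
    (hγ : ∃ p ∈ A, γ p ≠ 0) :
    ∃ t : ℝ, 0 < t ∧ (∀ a ∈ A, |β a + t * γ a| ≤ 1) ∧ ∃ a ∈ A, |β a + t * γ a| = 1 := by
  classical
  obtain ⟨p, hpA, hp⟩ := hγ
  have hne : (A.filter (fun a => γ a ≠ 0)).Nonempty := ⟨p, by simp [hpA, hp]⟩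
  obtain ⟨q, hq, hmin⟩ := Finset.exists_min_image (A.filter (fun a => γ a ≠ 0))
    (fun a => exitTime (β a) (γ a)) hne
  rw [Finset.mem_filter] at hq
  refine ⟨exitTime (β q) (γ q), exitTime_pos (hβ q hq.1) hq.2, ?_, q, hq.1, exitTime_abs hq.2⟩
  intro a ha
  by_cases hga : γ a = 0
  · rw [hga, mul_zero, add_zero]
    exact (hβ a ha).le
  · exact abs_le_of_le_exitTime (hβ a ha) hga (exitTime_pos (hβ q hq.1) hq.2).le
      (hmin a (by simp [ha, hga]))

/-! ### Two point inequality -/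

theorem two_point {lam mu tp tm : ℝ} (htp : 0 < tp) (htm : 0 < tm) (htp2 : tp ≤ 2) (htm2 : tm ≤ 2)
    (hlam : |lam| ≤ 3 / 32) (hmu0 : 0 ≤ mu) (hmu1 : mu ≤ 1 / 64) (hsq : (|lam| + 2 * mu) ^ 2 ≤ mu) :
    tm * exp (lam * tp - mu * tp ^ 2) + tp * exp (-(lam * tm) - mu * tm ^ 2) ≤ tp + tm := by
  have key : ∀ (l t : ℝ), |l| ≤ 3 / 32 → (|l| + 2 * mu) ^ 2 ≤ mu → 0 < t → t ≤ 2 →
      exp (l * t - mu * t ^ 2) ≤ 1 + (l * t - mu * t ^ 2) + mu * t ^ 2 := by
    intro l t hl hls ht0 ht2
    have hz : |l * t - mu * t ^ 2| ≤ 1 := by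
      have h1 : |l * t - mu * t ^ 2| ≤ |l * t| + |mu * t ^ 2| := abs_sub _ _
      have h2 : |l * t| ≤ 3 / 32 * 2 := by
        rw [abs_mul, abs_of_pos ht0]
        exact mul_le_mul hl ht2 ht0.le (by norm_num)
      have h3 : |mu * t ^ 2| ≤ 1 / 64 * 4 := by
        rw [abs_mul, abs_of_nonneg hmu0, abs_of_nonneg (sq_nonneg t)]
        exact mul_le_mul hmu1 (by nlinarith) (sq_nonneg t) (by norm_num)
      linarith
    have h := Real.abs_exp_sub_one_sub_id_le hz
    have h' := (abs_le.mp h).2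
    have h4 : (l * t - mu * t ^ 2) ^ 2 ≤ mu * t ^ 2 := by
      have h5 : (l * t - mu * t ^ 2) ^ 2 = t ^ 2 * (l - mu * t) ^ 2 := by ring
      have h6 : (l - mu * t) ^ 2 ≤ (|l| + 2 * mu) ^ 2 := by
        apply sq_le_sq'
        · have := neg_abs_le l
          nlinarith
        · have := le_abs_self l
          nlinarith
      rw [h5]
      nlinarith [sq_nonneg t]
    linarith
  have k1 := key lam tp hlam hsq htp htp2
  have k2 := key (-lam) tm (by rwa [abs_neg]) (by rwa [abs_neg]) htm htm2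
  have e2 : -lam * tm - mu * tm ^ 2 = -(lam * tm) - mu * tm ^ 2 := by ring
  rw [e2] at k2
  have m1 := mul_le_mul_of_nonneg_left k1 htm.le
  have m2 := mul_le_mul_of_nonneg_left k2 htp.le
  nlinarith [m1, m2]

/-! ### Squared length of projected test vectors -/

section Proj

variable {E : Type*} [NormedAddCommGroup E] [InnerProductSpace ℝ E] [FiniteDimensional ℝ E]

/-- squared length of the projection of `e` to `W` -/
noncomputable def qf (W : Submodule ℝ E) (e : E) : ℝ := ‖W.starProjection e‖ ^ 2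

theorem qf_nonneg (W : Submodule ℝ E) (e : E) : 0 ≤ qf W e := sq_nonneg _

theorem qf_le_one (W : Submodule ℝ E) {e : E} (he : ‖e‖ ≤ 1) : qf W e ≤ 1 := by
  unfold qf
  have h1 : ‖W.starProjection e‖ ≤ ‖e‖ := W.norm_starProjection_apply_le e
  have h2 : (0 : ℝ) ≤ ‖W.starProjection e‖ := norm_nonneg _
  nlinarith

theorem sq_inner_le_qf_sub {W U : Submodule ℝ E} (hWU : W ≤ U) {r : E} (hrU : r ∈ U)
    (hrW : ∀ w ∈ W, inner ℝ w r = 0) (hr : ‖r‖ ≤ 1) (e : E) :
    (inner ℝ e r) ^ 2 ≤ qf U e - qf W e := by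
  set a := U.starProjection e with ha
  set b := W.starProjection e with hb
  have haU : a ∈ U := U.starProjection_apply_mem e
  have hbW : b ∈ W := W.starProjection_apply_mem e
  -- inner with `e` equals inner with `a`
  have h1 : inner ℝ e r = inner ℝ a r := by
    have : inner ℝ (e - a) r = 0 := U.starProjection_inner_eq_zero e r hrU
    rw [inner_sub_left] at this
    linarith
  have h2 : inner ℝ e r = inner ℝ (a - b) r := by
    rw [inner_sub_left, hrW b hbW, sub_zero, h1]
  -- Pythagoras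
  have h3 : inner ℝ (a - b) b = 0 := by
    have e1 : inner ℝ (e - b) b = 0 := W.starProjection_inner_eq_zero e b hbW
    have e2 : inner ℝ (e - a) b = 0 := U.starProjection_inner_eq_zero e b (hWU hbW)
    rw [inner_sub_left] at e1 e2 ⊢
    linarith
  have h4 : ‖a‖ ^ 2 = ‖a - b‖ ^ 2 + ‖b‖ ^ 2 := by
    have : a = (a - b) + b := by abel
    calc ‖a‖ ^ 2 = ‖(a - b) + b‖ ^ 2 := by rw [← this]
      _ = ‖a - b‖ ^ 2 + 2 * inner ℝ (a - b) b + ‖b‖ ^ 2 := norm_add_sq_real _ _
      _ = ‖a - b‖ ^ 2 + ‖b‖ ^ 2 := by rw [h3]; ring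
  have h5 : |inner ℝ (a - b) r| ≤ ‖a - b‖ * ‖r‖ := abs_real_inner_le_norm _ _
  have h6 : ‖a - b‖ * ‖r‖ ≤ ‖a - b‖ := by
    have := norm_nonneg (a - b)
    nlinarith
  have h7 : (inner ℝ (a - b) r) ^ 2 ≤ ‖a - b‖ ^ 2 := by
    rw [← sq_abs (inner ℝ (a - b) r)]
    exact pow_le_pow_left₀ (abs_nonneg _) (h5.trans h6) 2
  unfold qf
  rw [h2, ← ha, ← hb, h4]
  linarith

theorem qf_mono {W U : Submodule ℝ E} (hWU : W ≤ U) (e : E) : qf W e ≤ qf U e := by
  have := sq_inner_le_qf_sub hWU (r := 0) (zero_mem _) (by simp) (by simp) e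
  simp at this
  exact this

end Proj

/-! ### One step of the walk for one exponential -/

theorem step_exp {qU qW a b c tp tm s : ℝ} (hqW : 0 ≤ qW) (hqU : qU ≤ 1)
    (ha : a ^ 2 ≤ qU - qW) (hb : |b| ≤ 1) (htp : 0 < tp) (htm : 0 < tm) (htp2 : tp ≤ 2)
    (htm2 : tm ≤ 2) (hs : |s| = 1 / 16) :
    tm * (exp ((1 - (b + tp) ^ 2) * qU / 64 + (b + tp) ^ 2 * qW / 64) * exp (s * (c + tp * a))) +
      tp * (exp ((1 - (b - tm) ^ 2) * qU / 64 + (b - tm) ^ 2 * qW / 64) * exp (s * (c - tm * a))) ≤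
    (tp + tm) * (exp ((1 - b ^ 2) * qU / 64 + b ^ 2 * qW / 64) * exp (s * c)) := by
  set q := qU - qW with hq
  have hq0 : 0 ≤ q := le_trans (sq_nonneg a) ha
  have hq1 : q ≤ 1 := by linarith
  set lam := s * a - 2 * b * q / 64 with hlam
  set mu := q / 64 with hmu
  have habs_a : |a| ≤ Real.sqrt q := Real.abs_le_sqrt ha
  have hsq0 : 0 ≤ Real.sqrt q := Real.sqrt_nonneg q
  have hsq1 : Real.sqrt q ≤ 1 := by
    simpa using Real.sqrt_le_sqrt hq1
  have hsqq : Real.sqrt q * Real.sqrt q = q := Real.mul_self_sqrt hq0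
  have hlam1 : |lam| ≤ Real.sqrt q / 16 + q / 32 := by
    have h1 : |lam| ≤ |s * a| + |2 * b * q / 64| := abs_sub _ _
    have h2 : |s * a| ≤ Real.sqrt q / 16 := by
      rw [abs_mul, hs]; linarith
    have h3 : |2 * b * q / 64| ≤ q / 32 := by
      have : |2 * b * q / 64| = |b| * q / 32 := by
        rw [abs_div, abs_mul, abs_mul, abs_of_nonneg hq0]
        norm_num
        ring
      rw [this]
      have := mul_le_mul_of_nonneg_right hb hq0
      linarith
    linarith
  have hlam2 : |lam| ≤ 3 / 32 := by linarith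
  have hmu0 : 0 ≤ mu := by positivity
  have hmu1 : mu ≤ 1 / 64 := by rw [hmu]; linarith
  have hsq : (|lam| + 2 * mu) ^ 2 ≤ mu := by
    have h1 : |lam| + 2 * mu ≤ Real.sqrt q / 8 := by
      have : q ≤ Real.sqrt q := by nlinarith
      rw [hmu]
      linarith
    have h2 : 0 ≤ |lam| + 2 * mu := by positivity
    calc (|lam| + 2 * mu) ^ 2 ≤ (Real.sqrt q / 8) ^ 2 := pow_le_pow_left₀ h2 h1 2
      _ = (Real.sqrt q * Real.sqrt q) / 64 := by ring
      _ = mu := by rw [hsqq]
  have h2p := two_point htp htm htp2 htm2 hlam2 hmu0 hmu1 hsq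
  have hpos : 0 < exp ((1 - b ^ 2) * qU / 64 + b ^ 2 * qW / 64) * exp (s * c) := by positivity
  have e1 : exp ((1 - (b + tp) ^ 2) * qU / 64 + (b + tp) ^ 2 * qW / 64) * exp (s * (c + tp * a)) =
      (exp ((1 - b ^ 2) * qU / 64 + b ^ 2 * qW / 64) * exp (s * c)) *
        exp (lam * tp - mu * tp ^ 2) := by
    rw [← Real.exp_add, ← Real.exp_add, ← Real.exp_add]
    congr 1
    rw [hlam, hmu, hq]
    ring
  have e2 : exp ((1 - (b - tm) ^ 2) * qU / 64 + (b - tm) ^ 2 * qW / 64) * exp (s * (c - tm * a)) =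
      (exp ((1 - b ^ 2) * qU / 64 + b ^ 2 * qW / 64) * exp (s * c)) *
        exp (-(lam * tm) - mu * tm ^ 2) := by
    rw [← Real.exp_add, ← Real.exp_add, ← Real.exp_add]
    congr 1
    rw [hlam, hmu, hq]
    ring
  rw [e1, e2]
  have := mul_le_mul_of_nonneg_left h2p hpos.le
  linarith

theorem step_cosh {qU qW a b c tp tm : ℝ} (hqW : 0 ≤ qW) (hqU : qU ≤ 1)
    (ha : a ^ 2 ≤ qU - qW) (hb : |b| ≤ 1) (htp : 0 < tp) (htm : 0 < tm) (htp2 : tp ≤ 2)
    (htm2 : tm ≤ 2) :
    tm * (exp ((1 - (b + tp) ^ 2) * qU / 64 + (b + tp) ^ 2 * qW / 64) * cosh ((c + tp * a) / 16)) +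
      tp * (exp ((1 - (b - tm) ^ 2) * qU / 64 + (b - tm) ^ 2 * qW / 64) *
        cosh ((c - tm * a) / 16)) ≤
    (tp + tm) * (exp ((1 - b ^ 2) * qU / 64 + b ^ 2 * qW / 64) * cosh (c / 16)) := by
  have h1 := step_exp (s := 1 / 16) (c := c) hqW hqU ha hb htp htm htp2 htm2 (by norm_num)
  have h2 := step_exp (s := -(1 / 16)) (c := c) hqW hqU ha hb htp htm htp2 htm2 (by norm_num)
  rw [Real.cosh_eq, Real.cosh_eq, Real.cosh_eq]
  have a1 : 1 / 16 * (c + tp * a) = (c + tp * a) / 16 := by ring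
  have a2 : 1 / 16 * (c - tm * a) = (c - tm * a) / 16 := by ring
  have a3 : 1 / 16 * c = c / 16 := by ring
  have a4 : -(1 / 16) * (c + tp * a) = -((c + tp * a) / 16) := by ring
  have a5 : -(1 / 16) * (c - tm * a) = -((c - tm * a) / 16) := by ring
  have a6 : -(1 / 16) * c = -(c / 16) := by ring
  rw [a1, a2, a3] at h1
  rw [a4, a5, a6] at h2
  linarith

/-! ### The walk -/

section Walk

variable {E : Type*} [NormedAddCommGroup E] [InnerProductSpace ℝ E] [FiniteDimensional ℝ E]
variable {κ : Type*} [Fintype κ] {α : Type*} [DecidableEq α]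

/-- the potential of a state of the walk -/
noncomputable def pot (e : κ → E) (ω : κ → ℝ) (U W : Submodule ℝ E) (b : ℝ) (c : κ → ℝ) : ℝ :=
  ∑ k, ω k * (exp ((1 - b ^ 2) * qf U (e k) / 64 + b ^ 2 * qf W (e k) / 64) * cosh (c k / 16))

theorem pot_mono_W {e : κ → E} {ω : κ → ℝ} (hω : ∀ k, 0 ≤ ω k) {U W W' : Submodule ℝ E}
    (h : W' ≤ W) (b : ℝ) (c : κ → ℝ) : pot e ω U W' b c ≤ pot e ω U W b c := by
  unfold pot
  apply Finset.sum_le_sum
  intro k _
  apply mul_le_mul_of_nonneg_left _ (hω k)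
  apply mul_le_mul_of_nonneg_right _ (Real.cosh_pos _).le
  apply Real.exp_le_exp.mpr
  have := mul_le_mul_of_nonneg_left (qf_mono h (e k)) (sq_nonneg b)
  linarith

theorem pot_le_of_le {e : κ → E} {ω : κ → ℝ} (hω : ∀ k, 0 ≤ ω k) {U' W' U W : Submodule ℝ E}
    (hU : U' ≤ W) (hW : W' ≤ W) {b b' : ℝ} (hb : b ^ 2 = 1) (hb' : b' ^ 2 ≤ 1) (c : κ → ℝ) :
    pot e ω U' W' b' c ≤ pot e ω U W b c := by
  unfold pot
  apply Finset.sum_le_sum
  intro k _
  apply mul_le_mul_of_nonneg_left _ (hω k)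
  apply mul_le_mul_of_nonneg_right _ (Real.cosh_pos _).le
  apply Real.exp_le_exp.mpr
  rw [hb]
  have h1 := mul_le_mul_of_nonneg_left (qf_mono hU (e k)) (sub_nonneg.mpr hb')
  have h2 := mul_le_mul_of_nonneg_left (qf_mono hW (e k)) (sq_nonneg b')
  linarith

theorem cosh_sum_le_pot {e : κ → E} {ω : κ → ℝ} (hω : ∀ k, 0 ≤ ω k) (U W : Submodule ℝ E)
    {b : ℝ} (hb : b ^ 2 ≤ 1) (c : κ → ℝ) : ∑ k, ω k * cosh (c k / 16) ≤ pot e ω U W b c := by
  unfold pot
  apply Finset.sum_le_sum
  intro k _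
  apply mul_le_mul_of_nonneg_left _ (hω k)
  have h0 : (0 : ℝ) ≤ (1 - b ^ 2) * qf U (e k) / 64 + b ^ 2 * qf W (e k) / 64 := by
    have h1 := mul_nonneg (sub_nonneg.mpr hb) (qf_nonneg U (e k))
    have h2 := mul_nonneg (sq_nonneg b) (qf_nonneg W (e k))
    linarith
  have h1 : 1 ≤ exp ((1 - b ^ 2) * qf U (e k) / 64 + b ^ 2 * qf W (e k) / 64) :=
    Real.one_le_exp h0
  have := (Real.cosh_pos (c k / 16)).le
  nlinarith

theorem pot_step {e : κ → E} (he : ∀ k, ‖e k‖ ≤ 1) {ω : κ → ℝ} (hω : ∀ k, 0 ≤ ω k)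
    {U W : Submodule ℝ E} (hWU : W ≤ U) {r : E} (hrU : r ∈ U) (hrW : ∀ w ∈ W, inner ℝ w r = 0)
    (hr : ‖r‖ ≤ 1) {b tp tm : ℝ} (hb : |b| ≤ 1) (htp : 0 < tp) (htm : 0 < tm) (htp2 : tp ≤ 2)
    (htm2 : tm ≤ 2) (c : κ → ℝ) :
    pot e ω U W (b + tp) (fun k => c k + tp * inner ℝ (e k) r) ≤ pot e ω U W b c ∨
    pot e ω U W (b - tm) (fun k => c k - tm * inner ℝ (e k) r) ≤ pot e ω U W b c := by
  by_contra hcon
  rw [not_or, not_le, not_le] at hcon
  obtain ⟨h1, h2⟩ := hcon
  have h3 : tm * pot e ω U W (b + tp) (fun k => c k + tp * inner ℝ (e k) r) +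
      tp * pot e ω U W (b - tm) (fun k => c k - tm * inner ℝ (e k) r) ≤
      (tp + tm) * pot e ω U W b c := by
    unfold pot
    rw [Finset.mul_sum, Finset.mul_sum, Finset.mul_sum, ← Finset.sum_add_distrib]
    apply Finset.sum_le_sum
    intro k _
    have := step_cosh (c := c k) (qf_nonneg W (e k)) (qf_le_one U (he k))
      (sq_inner_le_qf_sub hWU hrU hrW hr (e k)) hb htp htm htp2 htm2
    have := mul_le_mul_of_nonneg_left this (hω k)
    linarith
  nlinarith [mul_lt_mul_of_pos_left h1 htm, mul_lt_mul_of_pos_left h2 htp]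

theorem walk_ind (e : κ → E) (he : ∀ k, ‖e k‖ ≤ 1) (ω : κ → ℝ) (hω : ∀ k, 0 ≤ ω k)
    (u : α → E) :
    ∀ (n : ℕ) (A : Finset α), A.card = n → (∀ a ∈ A, ‖u a‖ ≤ 1) → ∀ p ∈ A,
      ∀ U : Submodule ℝ E, (∀ a ∈ A, u a ∈ U) → ∀ β : α → ℝ, (∀ a ∈ A, |β a| < 1) →
      ∀ c : κ → ℝ, ∃ ε : α → ℝ, (∀ a ∈ A, ε a = 1 ∨ ε a = -1) ∧
        ∑ k, ω k * cosh ((c k + ∑ a ∈ A, (ε a - β a) * inner ℝ (e k) (u a)) / 16) ≤
          pot e ω U (Submodule.span ℝ (u '' (A.erase p : Finset α))) (β p) c := by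
  intro n
  induction n using Nat.strong_induction_on with
  | _ n ih =>
    intro A hAn hA p hp U hU β hβ c
    set W := Submodule.span ℝ (u '' (A.erase p : Finset α)) with hW
    have hWU : W ≤ U := by
      rw [hW, Submodule.span_le]
      rintro _ ⟨a, ha, rfl⟩
      exact hU a (Finset.mem_of_mem_erase ha)
    set r := u p - W.starProjection (u p) with hr
    have hrU : r ∈ U := U.sub_mem (hU p hp) (hWU (W.starProjection_apply_mem _))
    have hrW : ∀ w ∈ W, inner ℝ w r = 0 := by
      intro w hw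
      rw [real_inner_comm]
      exact W.starProjection_inner_eq_zero (u p) w hw
    have hrn : ‖r‖ ≤ 1 := by
      have h1 := W.norm_sq_eq_add_norm_sq_starProjection (u p)
      rw [Submodule.starProjection_orthogonal_val] at h1
      have h2 := hA p hp
      have h3 : ‖r‖ ^ 2 ≤ 1 := by
        have : ‖u p‖ ^ 2 ≤ 1 := by
          have := norm_nonneg (u p)
          nlinarith
        have h4 := sq_nonneg ‖W.starProjection (u p)‖
        rw [hr]
        linarith
      have := norm_nonneg r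
      nlinarith
    -- coefficients of the projection
    obtain ⟨g, hg⟩ := (Submodule.mem_span_image_finset_iff_exists_fun' (R := ℝ)).mp
      (W.starProjection_apply_mem (u p))
    set γ : α → ℝ := fun a => if a = p then 1 else - g a with hγ
    have hγp : γ p = 1 := by simp [hγ]
    have hγsum : ∑ a ∈ A, γ a • u a = r := by
      rw [← Finset.add_sum_erase A _ hp, hγp, one_smul, hr, ← hg, sub_eq_add_neg,
        ← Finset.sum_neg_distrib]
      congr 1
      apply Finset.sum_congr rfl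
      intro a ha
      have : a ≠ p := Finset.ne_of_mem_erase ha
      simp [hγ, this]
    have hinner : ∀ k, ∑ a ∈ A, γ a * inner ℝ (e k) (u a) = inner ℝ (e k) r := by
      intro k
      rw [← hγsum, inner_sum]
      apply Finset.sum_congr rfl
      intro a _
      rw [inner_smul_right]
    -- key: any admissible move which freezes something
    have move : ∀ t : ℝ, (∀ a ∈ A, |β a + t * γ a| ≤ 1) → (∃ a ∈ A, |β a + t * γ a| = 1) →
        ∃ ε : α → ℝ, (∀ a ∈ A, ε a = 1 ∨ ε a = -1) ∧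
        ∑ k, ω k * cosh ((c k + ∑ a ∈ A, (ε a - β a) * inner ℝ (e k) (u a)) / 16) ≤
          pot e ω U W (β p + t) (fun k => c k + t * inner ℝ (e k) r) := by
      intro t ht hfr
      set β' : α → ℝ := fun a => β a + t * γ a with hβ'
      set A' := A.filter (fun a => |β' a| < 1) with hA'
      have hA'sub : A' ⊆ A := Finset.filter_subset _ _
      have hA'card : A'.card < n := by
        rw [← hAn]
        apply Finset.card_lt_card
        rw [Finset.ssubset_iff_of_subset hA'sub]
        obtain ⟨a, ha, ha1⟩ := hfr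
        exact ⟨a, ha, by simp [hA', hβ', ha1]⟩
      have hβ'p : β' p = β p + t := by simp [hβ', hγp]
      have hβ'psq : (β p + t) ^ 2 ≤ 1 := by
        have := ht p hp
        rw [hγp, mul_one] at this
        rw [← sq_abs]
        have h0 := abs_nonneg (β p + t)
        nlinarith
      set c' : κ → ℝ := fun k => c k + t * inner ℝ (e k) r with hc'
      -- the combination step
      have comb : ∀ ε' : α → ℝ, (∀ a ∈ A', ε' a = 1 ∨ ε' a = -1) →
          ∃ ε : α → ℝ, (∀ a ∈ A, ε a = 1 ∨ ε a = -1) ∧ ∀ k,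
            c k + ∑ a ∈ A, (ε a - β a) * inner ℝ (e k) (u a) =
              c' k + ∑ a ∈ A', (ε' a - β' a) * inner ℝ (e k) (u a) := by
        intro ε' hε'
        refine ⟨fun a => if a ∈ A' then ε' a else β' a, ?_, ?_⟩
        · intro a ha
          by_cases haA' : a ∈ A'
          · simp only [haA', if_true]
            exact hε' a haA'
          · simp only [haA', if_false]
            have h1 : ¬ |β' a| < 1 := by
              intro h
              exact haA' (by simp [hA', ha, h])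
            have h2 : |β' a| = 1 := le_antisymm (ht a ha) (not_lt.mp h1)
            exact eq_or_eq_neg_of_abs_eq h2
        · intro k
          have h1 : ∑ a ∈ A, ((if a ∈ A' then ε' a else β' a) - β a) * inner ℝ (e k) (u a) =
              ∑ a ∈ A, (t * (γ a * inner ℝ (e k) (u a)) +
                (if a ∈ A' then (ε' a - β' a) * inner ℝ (e k) (u a) else 0)) := by
            apply Finset.sum_congr rfl
            intro a _
            by_cases haA' : a ∈ A'
            · simp only [haA', if_true, hβ']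
              ring
            · simp only [haA', if_false, hβ']
              ring
          rw [h1, Finset.sum_add_distrib, ← Finset.mul_sum, hinner k, ← Finset.sum_filter]
          have h2 : A.filter (fun a => a ∈ A') = A' := by
            ext a
            simp only [Finset.mem_filter]
            exact ⟨fun h => h.2, fun h => ⟨hA'sub h, h⟩⟩
          rw [h2, hc']
          ring
      by_cases hpA' : p ∈ A'
      · obtain ⟨ε', hε', hle⟩ := ih A'.card hA'card A' rfl (fun a ha => hA a (hA'sub ha)) p hpA' U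
          (fun a ha => hU a (hA'sub ha)) β' (fun a ha => (Finset.mem_filter.mp ha).2) c'
        obtain ⟨ε, hε, heq⟩ := comb ε' hε'
        refine ⟨ε, hε, ?_⟩
        simp only [heq]
        refine hle.trans ?_
        rw [hβ'p]
        apply pot_mono_W hω
        apply Submodule.span_mono
        apply Set.image_mono
        exact_mod_cast Finset.erase_subset_erase p hA'sub
      · have hp1 : (β p + t) ^ 2 = 1 := by
          have h1 : ¬ |β' p| < 1 := fun h => hpA' (by simp [hA', hp, h])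
          have h2 : |β' p| = 1 := le_antisymm (ht p hp) (not_lt.mp h1)
          rw [hβ'p] at h2
          rw [← sq_abs, h2]
          norm_num
        rcases A'.eq_empty_or_nonempty with hemp | ⟨p', hp'⟩
        · obtain ⟨ε, hε, heq⟩ := comb (fun _ => 1) (by intro a _; left; rfl)
          refine ⟨ε, hε, ?_⟩
          simp only [heq, hemp, Finset.sum_empty, add_zero]
          exact cosh_sum_le_pot hω U W hβ'psq c'
        · obtain ⟨ε', hε', hle⟩ := ih A'.card hA'card A' rfl (fun a ha => hA a (hA'sub ha)) p' hp'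
            (Submodule.span ℝ (u '' (A' : Set α)))
            (fun a ha => Submodule.subset_span ⟨a, ha, rfl⟩) β'
            (fun a ha => (Finset.mem_filter.mp ha).2) c'
          obtain ⟨ε, hε, heq⟩ := comb ε' hε'
          refine ⟨ε, hε, ?_⟩
          simp only [heq]
          refine hle.trans ?_
          have hA'er : ∀ a ∈ A', a ∈ A.erase p := by
            intro a ha
            rw [Finset.mem_erase]
            exact ⟨fun h => hpA' (h ▸ ha), hA'sub ha⟩
          apply pot_le_of_le hω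
          · apply Submodule.span_mono
            apply Set.image_mono
            intro a ha
            exact hA'er a ha
          · apply Submodule.span_mono
            apply Set.image_mono
            intro a ha
            exact hA'er a (Finset.mem_of_mem_erase ha)
          · exact hp1
          · have h1 := (Finset.mem_filter.mp hp').2
            rw [← sq_abs]
            have h0 := abs_nonneg (β' p')
            nlinarith
    -- the two directions
    obtain ⟨tp, htp0, htpA, htpf⟩ := line_exit A β γ hβ ⟨p, hp, by rw [hγp]; norm_num⟩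
    obtain ⟨tm, htm0, htmA, htmf⟩ := line_exit A β (fun a => - γ a) hβ
      ⟨p, hp, by simp only [hγp]; norm_num⟩
    have hbp := abs_lt.mp (hβ p hp)
    have htp2 : tp ≤ 2 := by
      have := htpA p hp
      rw [hγp, mul_one, abs_le] at this
      linarith
    have htm2 : tm ≤ 2 := by
      have := htmA p hp
      simp only [hγp] at this
      rw [abs_le] at this
      linarith
    rcases pot_step he hω hWU hrU hrW hrn (hβ p hp).le htp0 htm0 htp2 htm2 c with h | h
    · obtain ⟨ε, hε, hle⟩ := move tp htpA htpf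
      exact ⟨ε, hε, hle.trans h⟩
    · have c1 : ∀ a, β a + tm * -γ a = β a + (-tm) * γ a := fun a => by ring
      simp only [c1] at htmA htmf
      obtain ⟨ε, hε, hle⟩ := move (-tm) htmA htmf
      refine ⟨ε, hε, hle.trans ?_⟩
      have e1 : β p + -tm = β p - tm := by ring
      have e2 : (fun k => c k + -tm * inner ℝ (e k) r) = fun k => c k - tm * inner ℝ (e k) r := by
        funext k; ring
      rw [e1, e2]
      exact h

/-- Exponential rounding lemma. -/
theorem round_exp (e : κ → E) (he : ∀ k, ‖e k‖ ≤ 1) (ω : κ → ℝ) (hω : ∀ k, 0 ≤ ω k)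
    (u : α → E) (A : Finset α) (hA : ∀ a ∈ A, ‖u a‖ ≤ 1) (β : α → ℝ) (hβ : ∀ a ∈ A, |β a| < 1)
    (c : κ → ℝ) :
    ∃ ε : α → ℝ, (∀ a ∈ A, ε a = 1 ∨ ε a = -1) ∧
      ∑ k, ω k * cosh ((c k + ∑ a ∈ A, (ε a - β a) * inner ℝ (e k) (u a)) / 16) ≤
        exp (1 / 64) * ∑ k, ω k * cosh (c k / 16) := by
  rcases A.eq_empty_or_nonempty with rfl | ⟨p, hp⟩
  · refine ⟨fun _ => 1, by simp, ?_⟩
    simp only [Finset.sum_empty, add_zero]
    have h1 : (1 : ℝ) ≤ exp (1 / 64) := Real.one_le_exp (by norm_num)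
    have h2 : 0 ≤ ∑ k, ω k * cosh (c k / 16) :=
      Finset.sum_nonneg fun k _ => mul_nonneg (hω k) (Real.cosh_pos _).le
    nlinarith
  · obtain ⟨ε, hε, hle⟩ := walk_ind e he ω hω u A.card A rfl hA p hp ⊤ (fun _ _ => trivial) β hβ c
    refine ⟨ε, hε, hle.trans ?_⟩
    unfold pot
    rw [Finset.mul_sum]
    apply Finset.sum_le_sum
    intro k _
    have h1 : exp ((1 - β p ^ 2) * qf ⊤ (e k) / 64 +
        β p ^ 2 * qf (Submodule.span ℝ (u '' (A.erase p : Finset α))) (e k) / 64) ≤
        exp (1 / 64) := by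
      apply Real.exp_le_exp.mpr
      have h2 : β p ^ 2 ≤ 1 := by
        have := (hβ p hp).le
        rw [← sq_abs]
        have h0 := abs_nonneg (β p)
        nlinarith
      have h3 := mul_le_mul_of_nonneg_left (qf_le_one ⊤ (he k)) (sub_nonneg.mpr h2)
      have h4 := mul_le_mul_of_nonneg_left
        (qf_le_one (Submodule.span ℝ (u '' (A.erase p : Finset α))) (he k)) (sq_nonneg (β p))
      linarith
    have h2 := mul_le_mul_of_nonneg_right h1 (Real.cosh_pos (c k / 16)).le
    have h3 := mul_le_mul_of_nonneg_left h2 (hω k)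
    linarith

end Walk

end Vale.Agent.P262
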