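import Vale.Agent.Lib.P262.Rounding

/-! Sparsification of a fractional colouring and the combined rounding lemma for P262. -/

namespace Vale.Agent.P262

open Finset Real

/-- a fractional colouring can be moved, without changing given linear statistics, to one with few
fractional entries -/
theorem sparsify {α φ : Type*} [DecidableEq α] [Fintype φ] (A : Finset α) (f : α → φ → ℝ) :
    ∀ (n : ℕ) (β : α → ℝ), (∀ a ∈ A, |β a| ≤ 1) → (A.filter (fun a => |β a| < 1)).card = n →
    ∃ β' : α → ℝ, (∀ a ∈ A, |β' a| ≤ 1) ∧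
      (∀ k, ∑ a ∈ A, β' a * f a k = ∑ a ∈ A, β a * f a k) ∧
      (A.filter (fun a => |β' a| < 1)).card ≤ Fintype.card φ := by
  intro n
  induction n using Nat.strong_induction_on with
  | _ n ih =>
    intro β hβ hn
    by_cases hle : n ≤ Fintype.card φ
    · exact ⟨β, hβ, fun _ => rfl, hn ▸ hle⟩
    rw [not_le] at hle
    set F := A.filter (fun a => |β a| < 1) with hF
    have hnot : ¬ LinearIndependent ℝ (fun a : F => f a) := by
      intro h
      have h1 := h.fintype_card_le_finrank
      rw [Module.finrank_fintype_fun_eq_card, Fintype.card_coe, hn] at h1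
      omega
    rw [Fintype.not_linearIndependent_iff] at hnot
    obtain ⟨g, hg, a0, ha0⟩ := hnot
    set γ : α → ℝ := fun a => if h : a ∈ F then g ⟨a, h⟩ else 0 with hγ
    have hγF : ∀ a : F, γ a = g a := by
      intro a
      simp only [hγ, a.2, dif_pos]
    have hFA : F ⊆ A := Finset.filter_subset _ _
    have hsum : ∀ k, ∑ a ∈ A, γ a * f a k = 0 := by
      intro k
      have h1 : ∑ a ∈ A, γ a * f a k = ∑ a ∈ F, γ a * f a k := by
        symm
        apply Finset.sum_subset hFA
        intro a _ haF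
        simp only [hγ, haF, not_false_eq_true, dif_neg, zero_mul]
      rw [h1, ← Finset.sum_coe_sort]
      have h2 := congrFun hg k
      rw [Finset.sum_apply] at h2
      simp only [Pi.smul_apply, smul_eq_mul, Pi.zero_apply] at h2
      rw [← h2]
      apply Finset.sum_congr rfl
      intro a _
      rw [hγF a]
    obtain ⟨t, ht0, ht1, a1, ha1, ha1e⟩ := line_exit F β γ
      (fun a ha => (Finset.mem_filter.mp ha).2) ⟨a0, a0.2, by rw [hγF]; exact ha0⟩
    set β1 : α → ℝ := fun a => β a + t * γ a with hβ1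
    have hβ1A : ∀ a ∈ A, |β1 a| ≤ 1 := by
      intro a ha
      by_cases haF : a ∈ F
      · exact ht1 a haF
      · simp only [hβ1, hγ, haF, not_false_eq_true, dif_neg, mul_zero, add_zero]
        exact hβ a ha
    have hlt : (A.filter (fun a => |β1 a| < 1)).card < n := by
      rw [← hn]
      apply Finset.card_lt_card
      rw [Finset.ssubset_iff_of_subset]
      · refine ⟨a1, ha1, ?_⟩
        simp only [Finset.mem_filter, not_and, not_lt]
        intro _
        exact ha1e.ge
      · intro a ha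
        rw [Finset.mem_filter] at ha
        by_contra haF
        have h1 : β1 a = β a := by
          simp only [hβ1, hγ, haF, not_false_eq_true, dif_neg, mul_zero, add_zero]
        rw [h1] at ha
        exact haF (Finset.mem_filter.mpr ha)
    obtain ⟨β', h1, h2, h3⟩ := ih _ hlt β1 hβ1A rfl
    refine ⟨β', h1, fun k => ?_, h3⟩
    rw [h2 k]
    simp only [hβ1, add_mul, mul_assoc]
    rw [Finset.sum_add_distrib, ← Finset.mul_sum, hsum k, mul_zero, add_zero]

/-- Combined rounding lemma.  `u` are the vectors balanced by the walk, `g` are extra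
statistics. -/
theorem round_comb {α κ ψ : Type*} [DecidableEq α] [Fintype κ] [DecidableEq κ] [Fintype ψ]
    (G : Finset α) (β : α → ℝ) (hβ : ∀ a ∈ G, |β a| ≤ 1) (u : α → κ → ℝ)
    (hu : ∀ a ∈ G, ∑ k, u a k ^ 2 ≤ 1) (ω : κ → ℝ) (hω : ∀ k, 0 ≤ ω k) (g : α → ψ → ℝ)
    (B : ψ → ℝ) (hB0 : ∀ k, 0 ≤ B k) (hB : ∀ a ∈ G, ∀ k, |g a k| ≤ B k) :
    ∃ ε : α → ℝ, (∀ a ∈ G, ε a = 1 ∨ ε a = -1) ∧
      ∑ k, ω k * cosh ((∑ a ∈ G, (ε a - β a) * u a k) / 16) ≤ exp (1 / 64) * ∑ k, ω k ∧
      ∀ k, |∑ a ∈ G, (ε a - β a) * g a k| ≤ 2 * (Fintype.card κ + Fintype.card ψ) * B k := by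
  obtain ⟨β', h1, h2, h3⟩ := sparsify G (fun a => Sum.elim (u a) (g a)) _ β hβ rfl
  set F := G.filter (fun a => |β' a| < 1) with hF
  have hFG : F ⊆ G := Finset.filter_subset _ _
  have hu' : ∀ a ∈ F, ‖(WithLp.toLp 2 (u a) : EuclideanSpace ℝ κ)‖ ≤ 1 := by
    intro a ha
    rw [EuclideanSpace.norm_eq]
    rw [show (1 : ℝ) = Real.sqrt 1 by simp]
    apply Real.sqrt_le_sqrt
    simpa using hu a (hFG ha)
  obtain ⟨ε', hε', hpot⟩ := round_exp (E := EuclideanSpace ℝ κ)
    (fun k => EuclideanSpace.single k (1 : ℝ)) (by intro k; simp) ω hω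
    (fun a => WithLp.toLp 2 (u a)) F hu' β' (fun a ha => (Finset.mem_filter.mp ha).2) (fun _ => 0)
  have hin : ∀ (k : κ) (a : α), inner ℝ (EuclideanSpace.single k (1 : ℝ))
      (WithLp.toLp 2 (u a) : EuclideanSpace ℝ κ) = u a k := by
    intro k a
    simp [EuclideanSpace.inner_single_left]
  simp only [hin, zero_add, zero_div, Real.cosh_zero, mul_one] at hpot
  set ε : α → ℝ := fun a => if a ∈ F then ε' a else β' a with hε
  have hεpm : ∀ a ∈ G, ε a = 1 ∨ ε a = -1 := by
    intro a ha
    by_cases haF : a ∈ F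
    · simp only [hε, haF, if_true]
      exact hε' a haF
    · simp only [hε, haF, if_false]
      have h4 : ¬ |β' a| < 1 := by
        intro h
        exact haF (Finset.mem_filter.mpr ⟨ha, h⟩)
      have h5 : |β' a| = 1 := le_antisymm (h1 a ha) (not_lt.mp h4)
      exact eq_or_eq_neg_of_abs_eq h5
  have key : ∀ k : κ ⊕ ψ, ∑ a ∈ G, (ε a - β a) * (Sum.elim (u a) (g a) k) =
      ∑ a ∈ F, (ε' a - β' a) * (Sum.elim (u a) (g a) k) := by
    intro k
    have e1 : ∑ a ∈ G, (ε a - β a) * (Sum.elim (u a) (g a) k) =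
        ∑ a ∈ G, (ε a - β' a) * (Sum.elim (u a) (g a) k) +
        (∑ a ∈ G, β' a * (Sum.elim (u a) (g a) k) - ∑ a ∈ G, β a * (Sum.elim (u a) (g a) k)) := by
      rw [← Finset.sum_sub_distrib, ← Finset.sum_add_distrib]
      apply Finset.sum_congr rfl
      intro a _
      ring
    rw [e1, h2 k, sub_self, add_zero]
    symm
    have e2 : ∑ a ∈ F, (ε' a - β' a) * (Sum.elim (u a) (g a) k) =
        ∑ a ∈ F, (ε a - β' a) * (Sum.elim (u a) (g a) k) := by
      apply Finset.sum_congr rfl
      intro a ha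
      simp only [hε, ha, if_true]
    rw [e2]
    apply Finset.sum_subset hFG
    intro a _ haF
    simp only [hε, haF, if_false, sub_self, zero_mul]
  refine ⟨ε, hεpm, ?_, ?_⟩
  · have : ∀ k : κ, ∑ a ∈ G, (ε a - β a) * u a k = ∑ a ∈ F, (ε' a - β' a) * u a k := by
      intro k
      exact key (Sum.inl k)
    simp only [this]
    exact hpot
  · intro k
    have e3 := key (Sum.inr k)
    simp only [Sum.elim_inr] at e3
    rw [e3]
    have h4 : ∀ a ∈ F, |(ε' a - β' a) * g a k| ≤ 2 * B k := by
      intro a ha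
      rw [abs_mul]
      apply mul_le_mul _ (hB a (hFG ha) k) (abs_nonneg _) (by norm_num)
      have h5 := h1 a (hFG ha)
      rw [abs_le] at h5 ⊢
      rcases hε' a ha with h | h <;> rw [h] <;> constructor <;> linarith
    calc |∑ a ∈ F, (ε' a - β' a) * g a k| ≤ ∑ a ∈ F, |(ε' a - β' a) * g a k| :=
          Finset.abs_sum_le_sum_abs _ _
      _ ≤ ∑ a ∈ F, 2 * B k := Finset.sum_le_sum h4
      _ = F.card * (2 * B k) := by rw [Finset.sum_const, nsmul_eq_mul]
      _ ≤ (Fintype.card κ + Fintype.card ψ) * (2 * B k) := by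
          apply mul_le_mul_of_nonneg_right _ (by have := hB0 k; linarith)
          rw [Fintype.card_sum] at h3
          exact_mod_cast h3
      _ = 2 * (Fintype.card κ + Fintype.card ψ) * B k := by ring

end Vale.Agent.P262
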