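import Vale.Agent.Lib.P262.Sparsify

/-! The splitting lemma for P262. -/

namespace Vale.Agent.P262

open Finset Real

theorem one_add_sq_div_two_le_cosh (x : ℝ) : 1 + x ^ 2 / 2 ≤ cosh x := by
  have h1 : cosh x = 1 + 2 * sinh (x / 2) ^ 2 := by
    have h2 : cosh (2 * (x / 2)) = cosh (x / 2) ^ 2 + sinh (x / 2) ^ 2 := Real.cosh_two_mul _
    have h3 : cosh (x / 2) ^ 2 = sinh (x / 2) ^ 2 + 1 := Real.cosh_sq _
    rw [show 2 * (x / 2) = x by ring] at h2
    linarith
  have h4 : (x / 2) ^ 2 ≤ sinh (x / 2) ^ 2 := by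
    rcases le_total 0 (x / 2) with h | h
    · exact pow_le_pow_left₀ h (Real.self_le_sinh_iff.mpr h) 2
    · have h5 : -(x / 2) ≤ sinh (-(x / 2)) := Real.self_le_sinh_iff.mpr (by linarith)
      have h6 := pow_le_pow_left₀ (by linarith) h5 2
      rw [Real.sinh_neg, neg_sq, neg_sq] at h6
      exact h6
  rw [h1]
  nlinarith

section Half

variable {ι : Type*}

theorem half_sum (G : Finset ι) (ε : ι → ℝ) (hε : ∀ a ∈ G, ε a = 1 ∨ ε a = -1) (f : ι → ℝ) :
    ∑ a ∈ G.filter (fun a => ε a = 1), f a = (∑ a ∈ G, f a) / 2 + (∑ a ∈ G, ε a * f a) / 2 := by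
  rw [Finset.sum_filter, ← add_div, ← Finset.sum_add_distrib, Finset.sum_div]
  apply Finset.sum_congr rfl
  intro a ha
  rcases hε a ha with h | h
  · rw [h]; simp
  · rw [h]; norm_num

theorem half_sum' [DecidableEq ι] (G : Finset ι) (ε : ι → ℝ) (hε : ∀ a ∈ G, ε a = 1 ∨ ε a = -1) (f : ι → ℝ) :
    ∑ a ∈ G \ G.filter (fun a => ε a = 1), f a =
      (∑ a ∈ G, f a) / 2 - (∑ a ∈ G, ε a * f a) / 2 := by
  have h1 := half_sum G ε hε f
  have h2 := Finset.sum_sdiff (Finset.filter_subset (fun a => ε a = 1) G) (f := f)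
  linarith

end Half

/-- energy matrix of a family -/
def en {ι : Type*} {d : ℕ} (v : ι → Fin d → ℝ) (G : Finset ι) (l k : Fin d) : ℝ :=
  ∑ a ∈ G, v a l * v a k

theorem card_kappa (d : ℕ) : (Fintype.card (Fin d ⊕ Fin d ⊕ Unit) : ℝ) = 2 * d + 1 := by
  simp only [Fintype.card_sum, Fintype.card_fin, Fintype.card_unit]
  push_cast
  ring

theorem card_psi (d : ℕ) : (Fintype.card ((Fin d × Fin d) ⊕ Fin d) : ℝ) = d ^ 2 + d := by
  simp only [Fintype.card_sum, Fintype.card_fin, Fintype.card_prod]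
  push_cast
  ring

/-- The raw rounding step: all the statistics that the splitting lemma needs. -/
theorem round_raw {ι : Type*} [DecidableEq ι] {d : ℕ} (v : ι → Fin d → ℝ)
    (hv : ∀ a, ∑ k, v a k ^ 2 ≤ 1) (G H : Finset ι) (E Tr : Finset (Fin d))
    (θ : Fin d → ℝ) (hθ : ∀ i, i ∉ E → 0 < θ i) (hMi : ∀ i, i ∉ E → ∑ a ∈ G, v a i ^ 2 ≤ θ i)
    {τ : ℝ} (hτ : 0 ≤ τ) (hlight : ∀ a ∈ G \ H, ∀ i, i ∉ E → v a i ^ 2 ≤ τ * θ i)
    (β : ι → ℝ) (hβ : ∀ a ∈ G, |β a| ≤ 1) {r : ℝ}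
    (hr1 : 4 * exp (1 / 64) * (2 * d + 1) ≤ exp (r / 16)) :
    ∃ ε : ι → ℝ, (∀ a ∈ G, ε a = 1 ∨ ε a = -1) ∧
      (∀ k, |∑ a ∈ G, (ε a - β a) * v a k| ≤ 2 * r) ∧
      (∀ i, i ∉ E → |∑ a ∈ G, (ε a - β a) * v a i| ≤ 2 * (r * √d * √(θ i))) ∧
      (∑ k ∈ Tr, ((∑ a ∈ G, (ε a - β a) * v a k) / 2) ^ 2 ≤ 600 * (Tr.card : ℝ)) ∧
      (|∑ a ∈ G, (ε a - β a) * (if a ∈ H then 1 else 0)| ≤ 2 * r) ∧
      (∀ l k, |∑ a ∈ G, (ε a - β a) * (v a l * v a k)| ≤ 2 * (d + 2) ^ 2) ∧
      (∀ i, i ∉ E → |∑ a ∈ G, (ε a - β a) * (if a ∈ H then 0 else v a i ^ 2)| ≤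
        2 * ((d + 2) ^ 2 * (τ * θ i))) := by
  classical
  -- the balanced vectors
  set u : ι → (Fin d ⊕ Fin d ⊕ Unit) → ℝ := fun a =>
    Sum.elim (fun k => v a k / 2)
      (Sum.elim (fun i => if i ∈ E then 0 else v a i / (2 * √(d * θ i)))
        (fun _ => (if a ∈ H then 1 else 0) / 2)) with hu
  set g : ι → ((Fin d × Fin d) ⊕ Fin d) → ℝ := fun a =>
    Sum.elim (fun p => v a p.1 * v a p.2)
      (fun i => if i ∈ E then 0 else (if a ∈ H then 0 else v a i ^ 2)) with hg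
  set B : ((Fin d × Fin d) ⊕ Fin d) → ℝ :=
    Sum.elim (fun _ => 1) (fun i => if i ∈ E then 0 else τ * θ i) with hB
  set ω : (Fin d ⊕ Fin d ⊕ Unit) → ℝ := fun k =>
    1 / (2 * d + 1) + Sum.elim (fun k => if k ∈ Tr then 1 / (Tr.card : ℝ) else 0) (fun _ => 0) k
    with hω
  have hd1 : (0 : ℝ) < 2 * d + 1 := by positivity
  have hTr0 : ∀ k : Fin d, (0 : ℝ) ≤ if k ∈ Tr then 1 / (Tr.card : ℝ) else 0 := by
    intro k
    split_ifs <;> positivity
  have hω0 : ∀ k, 1 / (2 * (d : ℝ) + 1) ≤ ω k := by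
    intro k
    simp only [hω]
    rcases k with k | k
    · simp only [Sum.elim_inl]
      have := hTr0 k
      linarith
    · simp
  have hω1 : ∀ k, 0 ≤ ω k := fun k => le_trans (by positivity) (hω0 k)
  have hωsum : ∑ k, ω k ≤ 2 := by
    simp only [hω]
    rw [Finset.sum_add_distrib, Finset.sum_const, Finset.card_univ, nsmul_eq_mul, card_kappa]
    rw [Fintype.sum_sum_type]
    simp only [Sum.elim_inl, Sum.elim_inr, Finset.sum_const_zero, add_zero]
    rw [Finset.sum_ite_mem, Finset.univ_inter, Finset.sum_const, nsmul_eq_mul]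
    have h1 : (2 * (d : ℝ) + 1) * (1 / (2 * d + 1)) = 1 := by field_simp
    have h2 : (Tr.card : ℝ) * (1 / Tr.card) ≤ 1 := by
      by_cases h : (Tr.card : ℝ) = 0
      · rw [h]; simp
      · rw [mul_one_div_cancel h]
    linarith
  have hvk : ∀ a k, v a k ^ 2 ≤ 1 := by
    intro a k
    exact le_trans (Finset.single_le_sum (f := fun k => v a k ^ 2) (fun i _ => sq_nonneg _)
      (Finset.mem_univ k)) (hv a)
  have hvabs : ∀ a k, |v a k| ≤ 1 := by
    intro a k
    exact (sq_le_one_iff_abs_le_one _).mp (hvk a k)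
  have hu1 : ∀ a ∈ G, ∑ k, u a k ^ 2 ≤ 1 := by
    intro a ha
    rw [Fintype.sum_sum_type, Fintype.sum_sum_type]
    simp only [hu, Sum.elim_inl, Sum.elim_inr]
    have h1 : ∑ k, (v a k / 2) ^ 2 ≤ 1 / 4 := by
      have : ∑ k, (v a k / 2) ^ 2 = (∑ k, v a k ^ 2) / 4 := by
        rw [Finset.sum_div]
        apply Finset.sum_congr rfl
        intro k _
        ring
      rw [this]
      have := hv a
      linarith
    have h2 : ∑ i, (if i ∈ E then 0 else v a i / (2 * √(d * θ i))) ^ 2 ≤ 1 / 4 := by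
      have h3 : ∀ i : Fin d, (if i ∈ E then 0 else v a i / (2 * √(d * θ i))) ^ 2 ≤
          1 / (4 * (d : ℝ)) := by
        intro i
        have hd : (0 : ℝ) < d := by
          have := i.2
          exact_mod_cast (by omega : 0 < d)
        split_ifs with hi
        · rw [zero_pow two_ne_zero]
          positivity
        · have hθi := hθ i hi
          have h4 : v a i ^ 2 ≤ θ i := le_trans (Finset.single_le_sum
            (f := fun a => v a i ^ 2) (fun i _ => sq_nonneg _) ha) (hMi i hi)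
          rw [div_pow, mul_pow, Real.sq_sqrt (by positivity)]
          rw [div_le_div_iff₀ (by positivity) (by positivity)]
          nlinarith
      calc ∑ i, (if i ∈ E then 0 else v a i / (2 * √(d * θ i))) ^ 2 ≤
            ∑ _i : Fin d, 1 / (4 * (d : ℝ)) := Finset.sum_le_sum fun i _ => h3 i
        _ = d * (1 / (4 * (d : ℝ))) := by
            rw [Finset.sum_const, Finset.card_univ, Fintype.card_fin, nsmul_eq_mul]
        _ ≤ 1 / 4 := by
            by_cases h : (d : ℝ) = 0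
            · rw [h]; norm_num
            · field_simp
              norm_num
    have h5 : ∑ _k : Unit, ((if a ∈ H then (1 : ℝ) else 0) / 2) ^ 2 ≤ 1 / 4 := by
      rw [Finset.univ_unique, Finset.sum_singleton]
      split_ifs <;> norm_num
    linarith
  have hB0 : ∀ k, 0 ≤ B k := by
    intro k
    rcases k with p | i
    · simp [hB]
    · simp only [hB, Sum.elim_inr]
      split_ifs with hi
      · exact le_rfl
      · exact mul_nonneg hτ (hθ i hi).le
  have hB1 : ∀ a ∈ G, ∀ k, |g a k| ≤ B k := by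
    intro a ha k
    rcases k with p | i
    · simp only [hg, hB, Sum.elim_inl]
      rw [abs_mul]
      have h1 := hvabs a p.1
      have h2 := hvabs a p.2
      have h3 := abs_nonneg (v a p.1)
      have h4 := abs_nonneg (v a p.2)
      nlinarith
    · simp only [hg, hB, Sum.elim_inr]
      split_ifs with hi hH
      · simp
      · rw [abs_zero]; exact mul_nonneg hτ (hθ i hi).le
      · rw [abs_of_nonneg (sq_nonneg _)]
        exact hlight a (Finset.mem_sdiff.mpr ⟨ha, hH⟩) i hi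
  obtain ⟨ε, hε, hpot, hfeat⟩ := round_comb G β hβ u hu1 ω hω1 g B hB0 hB1
  have hE64 : exp (1 / 64) ≤ (1.02 : ℝ) := by
    have h := Real.exp_bound' (x := 1 / 64) (by norm_num) (by norm_num) (n := 2) (by norm_num)
    refine h.trans ?_
    norm_num [Finset.sum_range_succ, Nat.factorial]
  have hpot2 : ∑ k, ω k * cosh ((∑ a ∈ G, (ε a - β a) * u a k) / 16) ≤ 2 * exp (1 / 64) := by
    refine hpot.trans ?_
    rw [mul_comm]
    exact mul_le_mul_of_nonneg_right hωsum (Real.exp_pos _).le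
  -- sup bound
  have hsup : ∀ k, |∑ a ∈ G, (ε a - β a) * u a k| ≤ r := by
    intro k
    set X := ∑ a ∈ G, (ε a - β a) * u a k with hX
    have h1 : ω k * cosh (X / 16) ≤ 2 * exp (1 / 64) :=
      le_trans (Finset.single_le_sum
        (f := fun k => ω k * cosh ((∑ a ∈ G, (ε a - β a) * u a k) / 16))
        (fun i _ => mul_nonneg (hω1 i) (Real.cosh_pos _).le) (Finset.mem_univ k)) hpot2
    have h2 : 1 / (2 * (d : ℝ) + 1) * cosh (X / 16) ≤ 2 * exp (1 / 64) :=
      le_trans (mul_le_mul_of_nonneg_right (hω0 k) (Real.cosh_pos _).le) h1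
    have h3 : cosh (X / 16) ≤ 2 * exp (1 / 64) * (2 * d + 1) := by
      rw [one_div, inv_mul_le_iff₀ hd1] at h2
      linarith
    have h4 : exp (|X| / 16) ≤ 2 * cosh (X / 16) := by
      have h5 : cosh (X / 16) = cosh (|X| / 16) := by
        have : |X| / 16 = |X / 16| := by rw [abs_div]; norm_num
        rw [this, Real.cosh_abs]
      rw [h5, Real.cosh_eq]
      have := Real.exp_pos (-(|X| / 16))
      linarith
    have h6 : exp (|X| / 16) ≤ exp (r / 16) := by linarith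
    have h7 := Real.exp_le_exp.mp h6
    linarith
  have hXk : ∀ k, ∑ a ∈ G, (ε a - β a) * v a k =
      2 * ∑ a ∈ G, (ε a - β a) * u a (Sum.inl k) := by
    intro k
    rw [Finset.mul_sum]
    apply Finset.sum_congr rfl
    intro a _
    simp only [hu, Sum.elim_inl]
    ring
  refine ⟨ε, hε, ?_, ?_, ?_, ?_, ?_, ?_⟩
  · intro k
    rw [hXk k, abs_mul, abs_two]
    have := hsup (Sum.inl k)
    linarith
  · intro i hi
    have hθi := hθ i hi
    have hd : (0 : ℝ) < d := by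
      have := i.2
      exact_mod_cast (by omega : 0 < d)
    have h1 : ∑ a ∈ G, (ε a - β a) * v a i =
        (2 * √(d * θ i)) * ∑ a ∈ G, (ε a - β a) * u a (Sum.inr (Sum.inl i)) := by
      rw [Finset.mul_sum]
      apply Finset.sum_congr rfl
      intro a _
      simp only [hu, Sum.elim_inl, Sum.elim_inr, hi, if_false]
      have : √(d * θ i) ≠ 0 := by positivity
      field_simp
    have h2 := hsup (Sum.inr (Sum.inl i))
    rw [h1, abs_mul, abs_of_nonneg (by positivity), Real.sqrt_mul hd.le]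
    have h3 : 0 ≤ 2 * (√(d : ℝ) * √(θ i)) := by positivity
    calc 2 * (√(d : ℝ) * √(θ i)) * |∑ a ∈ G, (ε a - β a) * u a (Sum.inr (Sum.inl i))| ≤
          2 * (√(d : ℝ) * √(θ i)) * r := mul_le_mul_of_nonneg_left h2 h3
      _ = 2 * (r * √d * √(θ i)) := by ring
  · -- l2 bound on the transitional coordinates
    have h1 : ∑ k ∈ Tr, (1 / (Tr.card : ℝ)) *
        cosh ((∑ a ∈ G, (ε a - β a) * u a (Sum.inl k)) / 16) ≤ 2 * exp (1 / 64) := by
      refine le_trans ?_ hpot2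
      rw [Fintype.sum_sum_type]
      have h2 : ∑ k ∈ Tr, (1 / (Tr.card : ℝ)) *
          cosh ((∑ a ∈ G, (ε a - β a) * u a (Sum.inl k)) / 16) ≤
          ∑ k : Fin d, ω (Sum.inl k) *
            cosh ((∑ a ∈ G, (ε a - β a) * u a (Sum.inl k)) / 16) := by
        refine le_trans (Finset.sum_le_sum (g := fun k => ω (Sum.inl k) *
            cosh ((∑ a ∈ G, (ε a - β a) * u a (Sum.inl k)) / 16)) ?_)
          (Finset.sum_le_univ_sum_of_nonneg ?_)
        · intro k hk
          apply mul_le_mul_of_nonneg_right _ (Real.cosh_pos _).le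
          simp only [hω, Sum.elim_inl, hk, if_true]
          have : 0 < 1 / (2 * (d : ℝ) + 1) := by positivity
          linarith
        · intro k
          exact mul_nonneg (hω1 _) (Real.cosh_pos _).le
      have h3 : 0 ≤ ∑ k : Fin d ⊕ Unit, ω (Sum.inr k) *
          cosh ((∑ a ∈ G, (ε a - β a) * u a (Sum.inr k)) / 16) :=
        Finset.sum_nonneg fun k _ => mul_nonneg (hω1 _) (Real.cosh_pos _).le
      linarith
    rcases Tr.eq_empty_or_nonempty with hemp | hne
    · rw [hemp]; simp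
    have hcard : (0 : ℝ) < Tr.card := by exact_mod_cast hne.card_pos
    rw [← Finset.mul_sum, one_div, inv_mul_le_iff₀ hcard] at h1
    have h4 : ∀ k ∈ Tr, ((∑ a ∈ G, (ε a - β a) * v a k) / 2) ^ 2 ≤
        512 * (cosh ((∑ a ∈ G, (ε a - β a) * u a (Sum.inl k)) / 16) - 1) := by
      intro k _
      rw [hXk k]
      set X := ∑ a ∈ G, (ε a - β a) * u a (Sum.inl k)
      have h5 : 1 + (X / 16) ^ 2 / 2 ≤ cosh (X / 16) := one_add_sq_div_two_le_cosh _
      have : (2 * X / 2) ^ 2 = X ^ 2 := by ring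
      rw [this]
      nlinarith
    calc ∑ k ∈ Tr, ((∑ a ∈ G, (ε a - β a) * v a k) / 2) ^ 2 ≤
          ∑ k ∈ Tr, 512 * (cosh ((∑ a ∈ G, (ε a - β a) * u a (Sum.inl k)) / 16) - 1) :=
          Finset.sum_le_sum h4
      _ = 512 * (∑ k ∈ Tr, cosh ((∑ a ∈ G, (ε a - β a) * u a (Sum.inl k)) / 16) - Tr.card) := by
          rw [← Finset.mul_sum, Finset.sum_sub_distrib, Finset.sum_const, nsmul_eq_mul, mul_one]
      _ ≤ 512 * (Tr.card * (2 * exp (1 / 64)) - Tr.card) := by linarith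
      _ ≤ 600 * Tr.card := by nlinarith
  · have h1 : ∑ a ∈ G, (ε a - β a) * (if a ∈ H then (1 : ℝ) else 0) =
        2 * ∑ a ∈ G, (ε a - β a) * u a (Sum.inr (Sum.inr ())) := by
      rw [Finset.mul_sum]
      apply Finset.sum_congr rfl
      intro a _
      simp only [hu, Sum.elim_inr]
      ring
    rw [h1, abs_mul, abs_two]
    have := hsup (Sum.inr (Sum.inr ()))
    linarith
  · intro l k
    have h1 := hfeat (Sum.inl (l, k))
    simp only [hg, hB, Sum.elim_inl, card_kappa, card_psi] at h1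
    refine h1.trans ?_
    have : (0 : ℝ) ≤ d := by positivity
    nlinarith
  · intro i hi
    have h1 := hfeat (Sum.inr i)
    simp only [hg, hB, Sum.elim_inr, hi, if_false, card_kappa, card_psi] at h1
    refine h1.trans ?_
    have h2 : (0 : ℝ) ≤ d := by positivity
    have h3 : 0 ≤ τ * θ i := mul_nonneg hτ (hθ i hi).le
    have h4 : (2 * (d : ℝ) + 1 + (d ^ 2 + d)) ≤ (d + 2) ^ 2 := by nlinarith
    nlinarith [mul_le_mul_of_nonneg_right h4 h3]

/-- Cauchy-Schwarz for the drift. -/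
theorem drift_cs {ι : Type*} {d : ℕ} (v : ι → Fin d → ℝ) (G : Finset ι) (E : Finset (Fin d))
    (w : Fin d → ℝ) (f : ι → ℝ) :
    |∑ a ∈ G, (∑ l ∈ E, w l * v a l) * f a| ≤
      (∑ l ∈ E, |w l| * √(∑ a ∈ G, v a l ^ 2)) * √(∑ a ∈ G, f a ^ 2) := by
  have h1 : ∑ a ∈ G, (∑ l ∈ E, w l * v a l) * f a = ∑ l ∈ E, w l * ∑ a ∈ G, v a l * f a := by
    simp only [Finset.sum_mul, Finset.mul_sum]
    rw [Finset.sum_comm]
    apply Finset.sum_congr rfl
    intro l _
    apply Finset.sum_congr rfl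
    intro a _
    ring
  rw [h1, Finset.sum_mul]
  refine (Finset.abs_sum_le_sum_abs _ _).trans (Finset.sum_le_sum fun l _ => ?_)
  rw [abs_mul, mul_assoc]
  apply mul_le_mul_of_nonneg_left _ (abs_nonneg _)
  rw [← Real.sqrt_mul (Finset.sum_nonneg fun _ _ => sq_nonneg _)]
  apply Real.abs_le_sqrt
  exact Finset.sum_mul_sq_le_sq_mul_sq G (fun a => v a l) f

/-- The splitting lemma. -/
theorem split {ι : Type*} [DecidableEq ι] {d : ℕ} (v : ι → Fin d → ℝ)
    (hv : ∀ a, ∑ k, v a k ^ 2 ≤ 1) (G H : Finset ι) (E Tr : Finset (Fin d))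
    (x y : Fin d → ℝ) (hxy : ∀ k, y k = x k + ∑ a ∈ G, v a k)
    (μ θ : Fin d → ℝ) {b Λ ρ τ r : ℝ} (hb : 0 ≤ b) (hρ : 0 ≤ ρ)
    (hΛ1 : (20 * (d * b)) ^ 2 ≤ Λ) (hΛ2 : 2 * (d * b * ρ) ≤ Λ) (hΛ3 : 4 * ρ ≤ Λ)
    (hΛ4 : 16 ≤ Λ) (hμ : ∀ l ∈ E, Λ ≤ μ l)
    (hx : ∀ l ∈ E, |x l| ≤ b) (hy : ∀ l ∈ E, |y l| ≤ b)
    (hM : ∀ l ∈ E, ∀ k, |en v G l k - if l = k then μ l else 0| ≤ √(μ l) + ρ)
    (hθ : ∀ i, i ∉ E → 0 < θ i) (hMi : ∀ i, i ∉ E → ∑ a ∈ G, v a i ^ 2 ≤ θ i)
    (hτ : 0 ≤ τ) (hlight : ∀ a ∈ G \ H, ∀ i, i ∉ E → v a i ^ 2 ≤ τ * θ i)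
    (hr1 : 4 * exp (1 / 64) * (2 * d + 1) ≤ exp (r / 16)) :
    ∃ L : Finset ι, L ⊆ G ∧
      (∀ l ∈ E, |x l + ∑ a ∈ L, v a l| ≤ r + 1) ∧
      (∃ ξ : Fin d → ℝ, (∀ i, i ∉ E → |x i + ∑ a ∈ L, v a i - (x i + y i) / 2 - ξ i| ≤ 1 ∧
          |x i + ∑ a ∈ L, v a i - (x i + y i) / 2 - ξ i| ≤ √(θ i)) ∧
        (∀ i, i ∉ E → |ξ i| ≤ r * √d * √(θ i)) ∧ ∑ i ∈ Tr, ξ i ^ 2 ≤ 600 * (Tr.card : ℝ)) ∧
      (∀ T : Finset ι, (T = L ∨ T = G \ L) → T ⊆ G ∧
        (∀ l ∈ E, ∀ k, |en v T l k - if l = k then μ l / 2 else 0| ≤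
          √(μ l / 2) + (ρ / 2 + (d + 2) ^ 2)) ∧
        (∀ i, i ∉ E → ∑ a ∈ T, (if a ∈ H then 0 else v a i ^ 2) ≤
          3 / 4 * ∑ a ∈ G, (if a ∈ H then 0 else v a i ^ 2) + (d + 2) ^ 2 * (τ * θ i)) ∧
        ∑ a ∈ T, (if a ∈ H then (1 : ℝ) else 0) ≤
          3 / 4 * ∑ a ∈ G, (if a ∈ H then (1 : ℝ) else 0) + r) := by
  classical
  have hd0 : (0 : ℝ) ≤ d := by positivity
  have hΛ0 : 0 < Λ := by linarith
  set sΛ := √Λ with hsΛ
  have hsΛ0 : 0 < sΛ := Real.sqrt_pos.mpr hΛ0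
  have hsΛsq : sΛ * sΛ = Λ := Real.mul_self_sqrt hΛ0.le
  have h20 : 20 * (d * b) ≤ sΛ := Real.le_sqrt_of_sq_le hΛ1
  have hsΛ4 : 4 ≤ sΛ := by
    apply Real.le_sqrt_of_sq_le
    norm_num
    exact hΛ4
  have hμ0 : ∀ l ∈ E, 0 < μ l := fun l hl => lt_of_lt_of_le hΛ0 (hμ l hl)
  have hvk : ∀ a k, v a k ^ 2 ≤ 1 := by
    intro a k
    exact le_trans (Finset.single_le_sum (f := fun k => v a k ^ 2) (fun i _ => sq_nonneg _)
      (Finset.mem_univ k)) (hv a)
  have hvabs : ∀ a k, |v a k| ≤ 1 := by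
    intro a k
    exact (sq_le_one_iff_abs_le_one _).mp (hvk a k)
  have hEcard : (E.card : ℝ) ≤ d := by
    have := Finset.card_le_univ E
    rw [Fintype.card_fin] at this
    exact_mod_cast this
  set w : Fin d → ℝ := fun l => -(x l + y l) / μ l with hw
  have hw1 : ∀ l ∈ E, |w l| ≤ 2 * b / μ l := by
    intro l hl
    simp only [hw]
    rw [abs_div, abs_neg, abs_of_pos (hμ0 l hl)]
    apply div_le_div_of_nonneg_right _ (hμ0 l hl).le
    calc |x l + y l| ≤ |x l| + |y l| := abs_add_le _ _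
      _ ≤ 2 * b := by linarith [hx l hl, hy l hl]
  have hw2 : ∀ l ∈ E, |w l| ≤ 2 * b / Λ := by
    intro l hl
    exact (hw1 l hl).trans (div_le_div_of_nonneg_left (by linarith) hΛ0 (hμ l hl))
  have hw3 : ∀ l ∈ E, |w l| * √(μ l) ≤ 2 * b / sΛ := by
    intro l hl
    have h1 : 0 < √(μ l) := Real.sqrt_pos.mpr (hμ0 l hl)
    have h2 : √(μ l) * √(μ l) = μ l := Real.mul_self_sqrt (hμ0 l hl).le
    have h3 : sΛ ≤ √(μ l) := Real.sqrt_le_sqrt (hμ l hl)
    calc |w l| * √(μ l) ≤ 2 * b / μ l * √(μ l) :=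
          mul_le_mul_of_nonneg_right (hw1 l hl) h1.le
      _ = 2 * b / √(μ l) := by
          rw [← h2]
          field_simp
          rw [Real.sqrt_sq h1.le]
      _ ≤ 2 * b / sΛ := div_le_div_of_nonneg_left (by linarith) hsΛ0 h3
  have hbs : d * (2 * b / sΛ) ≤ 1 / 10 := by
    rw [mul_div_assoc', div_le_iff₀ hsΛ0]
    linarith
  have hbΛ : d * (2 * b / Λ) ≤ 1 / 2 := by
    rw [mul_div_assoc', div_le_iff₀ hΛ0]
    nlinarith
  have hbρ : d * (2 * b / Λ * ρ) ≤ 1 := by
    have : d * (2 * b / Λ * ρ) = (2 * (d * b * ρ)) / Λ := by ring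
    rw [this, div_le_one hΛ0]
    exact hΛ2
  have hwsum : ∑ l ∈ E, |w l| ≤ 1 / 2 := by
    calc ∑ l ∈ E, |w l| ≤ ∑ _l ∈ E, 2 * b / Λ := Finset.sum_le_sum hw2
      _ = E.card * (2 * b / Λ) := by rw [Finset.sum_const, nsmul_eq_mul]
      _ ≤ d * (2 * b / Λ) := mul_le_mul_of_nonneg_right hEcard (by positivity)
      _ ≤ 1 / 2 := hbΛ
  have hMdiag : ∀ l ∈ E, ∑ a ∈ G, v a l ^ 2 ≤ 2 * μ l := by
    intro l hl
    have h1 := (abs_le.mp (hM l hl l)).2
    simp only [if_true] at h1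
    have h2 : en v G l l = ∑ a ∈ G, v a l ^ 2 := by
      unfold en
      apply Finset.sum_congr rfl
      intro a _
      ring
    rw [h2] at h1
    have h3 : √(μ l) * √(μ l) = μ l := Real.mul_self_sqrt (hμ0 l hl).le
    have h4 : sΛ ≤ √(μ l) := Real.sqrt_le_sqrt (hμ l hl)
    have h5 := hμ l hl
    nlinarith
  have hwS : ∑ l ∈ E, |w l| * √(∑ a ∈ G, v a l ^ 2) ≤ 3 / 20 := by
    have h1 : ∀ l ∈ E, |w l| * √(∑ a ∈ G, v a l ^ 2) ≤ 3 / 2 * (2 * b / sΛ) := by
      intro l hl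
      have h2 : √(∑ a ∈ G, v a l ^ 2) ≤ 3 / 2 * √(μ l) := by
        calc √(∑ a ∈ G, v a l ^ 2) ≤ √((3 / 2) ^ 2 * μ l) := by
              apply Real.sqrt_le_sqrt
              have := hMdiag l hl
              have := hμ0 l hl
              linarith
          _ = 3 / 2 * √(μ l) := by
              rw [Real.sqrt_mul (by norm_num), Real.sqrt_sq (by norm_num)]
      calc |w l| * √(∑ a ∈ G, v a l ^ 2) ≤ |w l| * (3 / 2 * √(μ l)) :=
            mul_le_mul_of_nonneg_left h2 (abs_nonneg _)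
        _ = 3 / 2 * (|w l| * √(μ l)) := by ring
        _ ≤ 3 / 2 * (2 * b / sΛ) := mul_le_mul_of_nonneg_left (hw3 l hl) (by norm_num)
    calc ∑ l ∈ E, |w l| * √(∑ a ∈ G, v a l ^ 2) ≤ ∑ _l ∈ E, 3 / 2 * (2 * b / sΛ) :=
          Finset.sum_le_sum h1
      _ = E.card * (3 / 2 * (2 * b / sΛ)) := by rw [Finset.sum_const, nsmul_eq_mul]
      _ ≤ d * (3 / 2 * (2 * b / sΛ)) := mul_le_mul_of_nonneg_right hEcard (by positivity)
      _ ≤ 3 / 20 := by linarith
  set β : ι → ℝ := fun a => ∑ l ∈ E, w l * v a l with hβ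
  have hβhalf : ∀ a, |β a| ≤ 1 / 2 := by
    intro a
    refine (Finset.abs_sum_le_sum_abs _ _).trans (le_trans (Finset.sum_le_sum fun l _ => ?_) hwsum)
    rw [abs_mul]
    have := hvabs a l
    have := abs_nonneg (w l)
    nlinarith
  have hdrift : ∀ f : ι → ℝ, |∑ a ∈ G, β a * f a| ≤ 3 / 20 * √(∑ a ∈ G, f a ^ 2) := by
    intro f
    exact (drift_cs v G E w f).trans (mul_le_mul_of_nonneg_right hwS (Real.sqrt_nonneg _))
  obtain ⟨ε, hε, e1, e2, e3, e4, e5, e6⟩ := round_raw v hv G H E Tr θ hθ hMi hτ hlight β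
    (fun a _ => (hβhalf a).trans (by norm_num)) hr1
  have hsplit : ∀ f : ι → ℝ, ∑ a ∈ G, ε a * f a =
      ∑ a ∈ G, β a * f a + ∑ a ∈ G, (ε a - β a) * f a := by
    intro f
    rw [← Finset.sum_add_distrib]
    apply Finset.sum_congr rfl
    intro a _
    ring
  set L := G.filter (fun a => ε a = 1) with hL
  have hTf : ∀ T : Finset ι, (T = L ∨ T = G \ L) → ∀ f : ι → ℝ,
      |∑ a ∈ T, f a - (∑ a ∈ G, f a) / 2| ≤
        |∑ a ∈ G, β a * f a| / 2 + |∑ a ∈ G, (ε a - β a) * f a| / 2 := by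
    intro T hT f
    have h3 : |(∑ a ∈ G, ε a * f a) / 2| ≤
        |∑ a ∈ G, β a * f a| / 2 + |∑ a ∈ G, (ε a - β a) * f a| / 2 := by
      rw [hsplit f, abs_div, abs_two, ← add_div]
      exact div_le_div_of_nonneg_right (abs_add_le _ _) (by norm_num)
    rcases hT with hT | hT
    · rw [hT, half_sum G ε hε f]
      have : (∑ a ∈ G, f a) / 2 + (∑ a ∈ G, ε a * f a) / 2 - (∑ a ∈ G, f a) / 2 =
        (∑ a ∈ G, ε a * f a) / 2 := by ring
      rw [this]
      exact h3
    · rw [hT, half_sum' G ε hε f]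
      have : (∑ a ∈ G, f a) / 2 - (∑ a ∈ G, ε a * f a) / 2 - (∑ a ∈ G, f a) / 2 =
        -((∑ a ∈ G, ε a * f a) / 2) := by ring
      rw [this, abs_neg]
      exact h3
  -- position of the new point
  have hz : ∀ k, x k + ∑ a ∈ L, v a k = (x k + y k) / 2 + (∑ a ∈ G, β a * v a k) / 2 +
      (∑ a ∈ G, (ε a - β a) * v a k) / 2 := by
    intro k
    rw [half_sum G ε hε (fun a => v a k), hsplit (fun a => v a k), hxy k]
    ring
  have hβv : ∀ k, ∑ a ∈ G, β a * v a k = ∑ l ∈ E, w l * en v G l k := by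
    intro k
    simp only [hβ, Finset.sum_mul, en, Finset.mul_sum]
    rw [Finset.sum_comm]
    apply Finset.sum_congr rfl
    intro l _
    apply Finset.sum_congr rfl
    intro a _
    ring
  have hdev : ∀ k, |∑ l ∈ E, w l * (en v G l k - if l = k then μ l else 0)| ≤ 2 := by
    intro k
    calc |∑ l ∈ E, w l * (en v G l k - if l = k then μ l else 0)| ≤
          ∑ l ∈ E, |w l * (en v G l k - if l = k then μ l else 0)| :=
          Finset.abs_sum_le_sum_abs _ _
      _ ≤ ∑ _l ∈ E, (2 * b / sΛ + 2 * b / Λ * ρ) := by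
          apply Finset.sum_le_sum
          intro l hl
          rw [abs_mul]
          calc |w l| * |en v G l k - if l = k then μ l else 0| ≤ |w l| * (√(μ l) + ρ) :=
                mul_le_mul_of_nonneg_left (hM l hl k) (abs_nonneg _)
            _ = |w l| * √(μ l) + |w l| * ρ := by ring
            _ ≤ 2 * b / sΛ + 2 * b / Λ * ρ :=
                add_le_add (hw3 l hl) (mul_le_mul_of_nonneg_right (hw2 l hl) hρ)
      _ = E.card * (2 * b / sΛ + 2 * b / Λ * ρ) := by rw [Finset.sum_const, nsmul_eq_mul]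
      _ ≤ d * (2 * b / sΛ + 2 * b / Λ * ρ) :=
          mul_le_mul_of_nonneg_right hEcard (by positivity)
      _ = d * (2 * b / sΛ) + d * (2 * b / Λ * ρ) := by ring
      _ ≤ 2 := by linarith
  refine ⟨L, Finset.filter_subset _ _, ?_, ?_, ?_⟩
  · -- active coordinates
    intro l hl
    rw [hz l, hβv l]
    have h1 : ∑ l' ∈ E, w l' * en v G l' l =
        ∑ l' ∈ E, w l' * (en v G l' l - if l' = l then μ l' else 0) - (x l + y l) := by
      have h2 : ∑ l' ∈ E, w l' * (if l' = l then μ l' else 0) = -(x l + y l) := by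
        rw [Finset.sum_eq_single_of_mem l hl]
        · simp only [if_true, hw]
          have := (hμ0 l hl).ne'
          field_simp
        · intro b' _ hb'
          simp [hb']
      simp only [mul_sub]
      rw [Finset.sum_sub_distrib, h2]
      ring
    rw [h1]
    have h3 := hdev l
    have h4 := e1 l
    rw [abs_le] at h3 h4 ⊢
    constructor <;> linarith
  · -- dormant coordinates
    refine ⟨fun i => (∑ a ∈ G, (ε a - β a) * v a i) / 2, ?_, ?_, e3⟩
    · intro i hi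
      have h0 : x i + ∑ a ∈ L, v a i - (x i + y i) / 2 - (∑ a ∈ G, (ε a - β a) * v a i) / 2 =
          (∑ a ∈ G, β a * v a i) / 2 := by
        rw [hz i]
        ring
      simp only [h0]
      constructor
      · rw [hβv i]
        have h1 : ∑ l ∈ E, w l * en v G l i =
            ∑ l ∈ E, w l * (en v G l i - if l = i then μ l else 0) := by
          apply Finset.sum_congr rfl
          intro l hl
          have : l ≠ i := fun h => hi (h ▸ hl)
          simp [this]
        rw [h1, abs_div, abs_two]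
        have := hdev i
        linarith
      · rw [abs_div, abs_two]
        have h1 := hdrift (fun a => v a i)
        have h2 : √(∑ a ∈ G, v a i ^ 2) ≤ √(θ i) := Real.sqrt_le_sqrt (hMi i hi)
        have h3 := Real.sqrt_nonneg (θ i)
        linarith
    · intro i hi
      have := e2 i hi
      simp only []
      rw [abs_div, abs_two]
      linarith
  · intro T hT
    refine ⟨?_, ?_, ?_, ?_⟩
    · rcases hT with h | h
      · rw [h]; exact Finset.filter_subset _ _
      · rw [h]; exact Finset.sdiff_subset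
    · intro l hl k
      have h1 := hTf T hT (fun a => v a l * v a k)
      have h2 := hdrift (fun a => v a l * v a k)
      have h3 : √(∑ a ∈ G, (v a l * v a k) ^ 2) ≤ 3 / 2 * √(μ l) := by
        calc √(∑ a ∈ G, (v a l * v a k) ^ 2) ≤ √((3 / 2) ^ 2 * μ l) := by
              apply Real.sqrt_le_sqrt
              have h4 : ∑ a ∈ G, (v a l * v a k) ^ 2 ≤ ∑ a ∈ G, v a l ^ 2 := by
                apply Finset.sum_le_sum
                intro a _
                have h5 := hvk a k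
                have h6 := sq_nonneg (v a l)
                nlinarith
              have := hMdiag l hl
              have := hμ0 l hl
              linarith
          _ = 3 / 2 * √(μ l) := by
              rw [Real.sqrt_mul (by norm_num), Real.sqrt_sq (by norm_num)]
      have h7 := e5 l k
      have h8 := hM l hl k
      have h9 : 7 / 10 * √(μ l) ≤ √(μ l / 2) := by
        apply Real.le_sqrt_of_sq_le
        rw [mul_pow, Real.sq_sqrt (hμ0 l hl).le]
        have := hμ0 l hl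
        linarith
      have h10 : 0 ≤ √(μ l) := Real.sqrt_nonneg _
      have e7 : en v T l k - (if l = k then μ l / 2 else 0) =
          (∑ a ∈ T, v a l * v a k - (∑ a ∈ G, v a l * v a k) / 2) +
          (en v G l k - if l = k then μ l else 0) / 2 := by
        unfold en
        split_ifs <;> ring
      rw [e7]
      have h11 : |(en v G l k - if l = k then μ l else 0) / 2| ≤ (√(μ l) + ρ) / 2 := by
        rw [abs_div, abs_two]
        linarith
      refine (abs_add_le _ _).trans ?_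
      linarith
    · intro i hi
      have h1 := hTf T hT (fun a => if a ∈ H then 0 else v a i ^ 2)
      have h2 := e6 i hi
      have h0 : ∀ a, (0 : ℝ) ≤ if a ∈ H then 0 else v a i ^ 2 := by
        intro a
        split_ifs
        · exact le_rfl
        · exact sq_nonneg _
      have h3 : |∑ a ∈ G, β a * (if a ∈ H then 0 else v a i ^ 2)| ≤
          1 / 2 * ∑ a ∈ G, (if a ∈ H then 0 else v a i ^ 2) := by
        rw [Finset.mul_sum]
        refine (Finset.abs_sum_le_sum_abs _ _).trans (Finset.sum_le_sum fun a _ => ?_)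
        rw [abs_mul, abs_of_nonneg (h0 a)]
        exact mul_le_mul_of_nonneg_right (hβhalf a) (h0 a)
      have h4 := (abs_le.mp h1).2
      linarith
    · have h1 := hTf T hT (fun a => if a ∈ H then (1 : ℝ) else 0)
      have h0 : ∀ a, (0 : ℝ) ≤ if a ∈ H then (1 : ℝ) else 0 := by
        intro a
        split_ifs <;> norm_num
      have h3 : |∑ a ∈ G, β a * (if a ∈ H then (1 : ℝ) else 0)| ≤
          1 / 2 * ∑ a ∈ G, (if a ∈ H then (1 : ℝ) else 0) := by
        rw [Finset.mul_sum]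
        refine (Finset.abs_sum_le_sum_abs _ _).trans (Finset.sum_le_sum fun a _ => ?_)
        rw [abs_mul, abs_of_nonneg (h0 a)]
        exact mul_le_mul_of_nonneg_right (hβhalf a) (h0 a)
      have h4 := (abs_le.mp h1).2
      linarith

end Vale.Agent.P262
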