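import Vale.Agent.Lib.P262.Recursion

/-! The steps of the recursion for P262. -/

namespace Vale.Agent.P262

open Finset Real

section

variable {ι : Type*} [Fintype ι] [DecidableEq ι] {d : ℕ} {p : Par d} {v : ι → Fin d → ℝ}
  {lam : Fin d → ℝ}

omit [Fintype ι] [DecidableEq ι] in
theorem abs_v_le (hv : ∀ a, ∑ k, v a k ^ 2 ≤ 1) (a : ι) (k : Fin d) : |v a k| ≤ 1 := by
  apply (sq_le_one_iff_abs_le_one _).mp
  exact le_trans (Finset.single_le_sum (f := fun k => v a k ^ 2) (fun i _ => sq_nonneg _)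
      (Finset.mem_univ k)) (hv a)

theorem stepA (hv : ∀ a, ∑ k, v a k ^ 2 ≤ 1) {S : Set (Fin d → ℝ)} {q s : ℕ} (hs : s < p.ℓ)
    (ih : ∀ V x y, Node p v lam q (s + 1) V x y → Adm v S V x) {V : Finset ι}
    {x y : Fin d → ℝ} (h : Node p v lam q s V x y) : Adm v S V x := by
  have hhs := p.hhs
  have hr := p.hr
  have hρ0 := p.ρ_nonneg
  obtain ⟨L, hLV, hact, ⟨ξ, hξ1, hξ2, hξ3⟩, hT⟩ := split v hv V (heavy p v lam q) (act p lam q)
    (trans p lam q) x y h.hxy (mu p lam q s) (fun i => p.Θ (age p lam q i))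
    (b := p.r + 1 + 2 * p.hs) (Λ := p.Λ) (ρ := p.ρ + p.hs) (τ := p.τ) (r := p.r)
    (by linarith) (by linarith) p.hΛ1 p.hΛ2 p.hΛ3 p.hΛ4
    (fun l hl => le_mu (by omega) hl)
    (fun l hl => (h.ix.1 l hl).trans (by linarith))
    (fun l hl => (h.iy.1 l hl).trans (by linarith))
    (fun l hl k => (h.hM l hl k).trans (by linarith))
    (fun i _ => p.Θ_pos _) h.hD p.hτ.le
    (by
      intro a ha i hi
      have h1 := (Finset.mem_sdiff.mp ha).2
      by_contra h2
      exact h1 (by simp only [heavy, Finset.mem_filter, Finset.mem_univ, true_and]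
                   exact ⟨i, hi, not_le.mp h2⟩))
    p.hr1
  set z : Fin d → ℝ := fun k => x k + ∑ a ∈ L, v a k with hz
  have hzI : Inv p lam q (s + 1) z :=
    Inv.mid h.ix h.iy (fun l hl => (hact l hl).trans (by linarith)) hξ1 hξ2 hξ3
  have hnode : ∀ T : Finset ι, (T = L ∨ T = V \ L) → ∀ x' y' : Fin d → ℝ,
      (∀ k, y' k = x' k + ∑ a ∈ T, v a k) → Inv p lam q (s + 1) x' → Inv p lam q (s + 1) y' →
      Node p v lam q (s + 1) T x' y' := by
    intro T hTT x' y' e1 e2 e3
    obtain ⟨g1, g2, g3, g4⟩ := hT T hTT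
    refine ⟨e1, e2, e3, ?_, ?_, ?_, ?_⟩
    · intro l hl k
      have e4 := g2 l hl k
      have e5 : mu p lam q (s + 1) l = mu p lam q s l / 2 := mu_succ q s l
      rw [e5]
      have := p.hρ
      refine e4.trans ?_
      linarith
    · intro i hi
      exact (Finset.sum_le_sum_of_subset_of_nonneg g1 fun _ _ _ => sq_nonneg _).trans (h.hD i hi)
    · intro i hi
      have e4 := g3 i hi
      have e5 := h.hL i hi
      have e6 := p.Θ_pos (age p lam q i)
      rw [pow_succ]
      nlinarith
    · have e5 := h.hH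
      rw [pow_succ]
      linarith
  have hsum : ∀ k, ∑ a ∈ V, v a k = ∑ a ∈ L, v a k + ∑ a ∈ V \ L, v a k := by
    intro k
    rw [add_comm]
    exact (Finset.sum_sdiff hLV).symm
  have hA1 : Adm v S L x := ih L x z (hnode L (Or.inl rfl) x z (fun k => rfl) h.ix.succ hzI)
  have hA2 : Adm v S (V \ L) z := ih (V \ L) z y (hnode _ (Or.inr rfl) z y (by
    intro k
    rw [h.hxy k, hsum k]
    simp only [hz]
    ring) hzI h.iy.succ)
  have hz' : z = x + ∑ a ∈ L, v a := by
    funext k
    simp only [hz, Pi.add_apply, Finset.sum_apply]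
  rw [hz'] at hA2
  have := adm_union (Finset.disjoint_sdiff) hA1 hA2
  rwa [Finset.union_sdiff_of_subset hLV] at this

theorem stepB (hv : ∀ a, ∑ k, v a k ^ 2 ≤ 1) {S : Set (Fin d → ℝ)} {B : ℝ}
    (hS : ∀ x, nrm x ≤ B → x ∈ S)
    (hB : √d * (p.Am + 25 * (p.n0 * (p.ℓ + 1) + 1)) + p.hs ≤ B) {q : ℕ}
    (ih : ∀ V x y, Node0 p v lam (q + 1) V x y → Adm v S V x) {V : Finset ι}
    {x y : Fin d → ℝ} (h : Node p v lam q p.ℓ V x y) : Adm v S V x := by
  have hhs := p.hhs
  have hr := p.hr
  have hρ0 := p.ρ_nonneg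
  set G := V.filter (fun a => a ∉ heavy p v lam q) with hG
  set F := V.filter (fun a => a ∈ heavy p v lam q) with hF
  have hGV : G ⊆ V := Finset.filter_subset _ _
  have hFV : F ⊆ V := Finset.filter_subset _ _
  have hsumFG : ∀ f : ι → ℝ, ∑ a ∈ V, f a = ∑ a ∈ F, f a + ∑ a ∈ G, f a := by
    intro f
    exact (Finset.sum_filter_add_sum_filter_not V (fun a => a ∈ heavy p v lam q) f).symm
  have hFcard : (F.card : ℝ) ≤ p.hs := by
    have h1 := h.hH
    rw [Finset.sum_boole] at h1
    exact h1.trans p.hcnt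
  have hFabs : ∀ f : ι → ℝ, ∀ c : ℝ, 0 ≤ c → (∀ a ∈ F, |f a| ≤ c) → |∑ a ∈ F, f a| ≤ p.hs * c := by
    intro f c hc hf
    calc |∑ a ∈ F, f a| ≤ ∑ a ∈ F, |f a| := Finset.abs_sum_le_sum_abs _ _
      _ ≤ ∑ _a ∈ F, c := Finset.sum_le_sum hf
      _ = F.card * c := by rw [Finset.sum_const, nsmul_eq_mul]
      _ ≤ p.hs * c := mul_le_mul_of_nonneg_right hFcard hc
  set w : Fin d → ℝ := fun k => ∑ a ∈ F, v a k with hw
  have hw1 : ∀ k, |w k| ≤ p.hs := by
    intro k
    have := hFabs (fun a => v a k) 1 (by norm_num) (fun a _ => abs_v_le hv a k)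
    simpa using this
  have hw2 : ∀ i, i ∉ act p lam q → |w i| ≤ p.hs * √(p.Θ (age p lam q i)) := by
    intro i hi
    apply hFabs (fun a => v a i) _ (Real.sqrt_nonneg _)
    intro a ha
    apply Real.abs_le_sqrt
    exact le_trans (Finset.single_le_sum (f := fun a => v a i ^ 2) (fun i _ => sq_nonneg _)
      (hFV ha)) (h.hD i hi)
  have hGheavy : ∀ a ∈ G, ∀ i, i ∉ act p lam q → v a i ^ 2 ≤ p.τ * p.Θ (age p lam q i) := by
    intro a ha i hi
    have h1 := (Finset.mem_filter.mp ha).2
    by_contra h2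
    exact h1 (by simp only [heavy, Finset.mem_filter, Finset.mem_univ, true_and]
                 exact ⟨i, hi, not_le.mp h2⟩)
  obtain ⟨L, hLG, hact, ⟨ξ, hξ1, hξ2, hξ3⟩, hT⟩ := split v hv G ∅ (act p lam q)
    (trans p lam q) x (fun k => y k - w k) (by
      intro k
      have := hsumFG (fun a => v a k)
      rw [h.hxy k]
      simp only [hw]
      linarith) (mu p lam q p.ℓ) (fun i => p.Θ (age p lam q i))
    (b := p.r + 1 + 2 * p.hs) (Λ := p.Λ) (ρ := p.ρ + p.hs) (τ := p.τ) (r := p.r)
    (by linarith) (by linarith) p.hΛ1 p.hΛ2 p.hΛ3 p.hΛ4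
    (fun l hl => le_mu (by omega) hl)
    (fun l hl => (h.ix.1 l hl).trans (by linarith))
    (fun l hl => by
      have e1 := h.iy.1 l hl
      have e2 := hw1 l
      have e3 := abs_sub (y l) (w l)
      linarith)
    (fun l hl k => by
      have e1 := h.hM l hl k
      have e2 : en v V l k = en v F l k + en v G l k := hsumFG (fun a => v a l * v a k)
      have e3 : |en v F l k| ≤ p.hs := by
        have := hFabs (fun a => v a l * v a k) 1 (by norm_num) (fun a _ => by
          rw [abs_mul]
          have e4 := abs_v_le hv a l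
          have e5 := abs_v_le hv a k
          have e6 := abs_nonneg (v a l)
          have e7 := abs_nonneg (v a k)
          nlinarith)
        simpa [en] using this
      have e8 : en v G l k - (if l = k then mu p lam q p.ℓ l else 0) =
          (en v V l k - (if l = k then mu p lam q p.ℓ l else 0)) - en v F l k := by
        rw [e2]; ring
      rw [e8]
      have e9 := abs_sub (en v V l k - (if l = k then mu p lam q p.ℓ l else 0)) (en v F l k)
      linarith)
    (fun i _ => p.Θ_pos _)
    (fun i hi => (Finset.sum_le_sum_of_subset_of_nonneg hGV fun _ _ _ => sq_nonneg _).trans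
      (h.hD i hi)) p.hτ.le
    (fun a ha i hi => hGheavy a (Finset.mem_sdiff.mp ha).1 i hi)
    p.hr1
  set z : Fin d → ℝ := fun k => x k + ∑ a ∈ L, v a k with hz
  set z' : Fin d → ℝ := fun k => z k + w k with hz'
  have hzI : Inv p lam (q + 1) 0 z := by
    refine Inv.mid_next (w := fun k => - w k) (ξ := ξ) h.ix h.iy
      (fun l hl => (hact l hl).trans (by linarith)) ?_ ?_ hξ2 hξ3
    · intro i hi
      have e1 := hξ1 i hi
      have e2 : x i + ∑ a ∈ L, v a i - (x i + (y i - w i)) / 2 - ξ i =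
          z i - (x i + y i) / 2 - ξ i - (-w i) / 2 := by
        simp only [hz]
        ring
      simp only [e2] at e1
      exact e1
    · intro i hi
      simp only [abs_neg]
      exact ⟨hw1 i, hw2 i hi⟩
  have hz'I : Inv p lam (q + 1) 0 z' := by
    refine Inv.mid_next (w := w) (ξ := ξ) h.ix h.iy ?_ ?_ ?_ hξ2 hξ3
    · intro l hl
      have e1 : |z l| ≤ p.r + 1 := hact l hl
      have e2 := hw1 l
      have e3 := abs_add_le (z l) (w l)
      simp only [hz']
      linarith
    · intro i hi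
      have e1 := hξ1 i hi
      have e2 : x i + ∑ a ∈ L, v a i - (x i + (y i - w i)) / 2 - ξ i =
          z' i - (x i + y i) / 2 - ξ i - w i / 2 := by
        simp only [hz, hz']
        ring
      simp only [e2] at e1
      exact e1
    · intro i hi
      exact ⟨hw1 i, hw2 i hi⟩
  have hnode : ∀ T : Finset ι, (T = L ∨ T = G \ L) → ∀ x' y' : Fin d → ℝ,
      (∀ k, y' k = x' k + ∑ a ∈ T, v a k) → Inv p lam (q + 1) 0 x' → Inv p lam (q + 1) 0 y' →
      Node0 p v lam (q + 1) T x' y' := by
    intro T hTT x' y' e1 e2 e3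
    obtain ⟨g1, g2, g3, g4⟩ := hT T hTT
    have hM' : ∀ l ∈ act p lam q, ∀ k, |en v T l k - if l = k then mu p lam (q + 1) 0 l else 0| ≤
        √(mu p lam (q + 1) 0 l) + p.ρ := by
      intro l hl k
      have e4 := g2 l hl k
      have e5 : mu p lam (q + 1) 0 l = mu p lam q p.ℓ l / 2 := mu_round q l
      rw [e5]
      have := p.hρ
      refine e4.trans ?_
      linarith
    refine ⟨e1, e2, e3, fun l hl k => hM' l (act_anti q hl) k, ?_⟩
    intro i hi
    by_cases hiq : i ∈ act p lam q
    · -- newly dormant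
      rw [age_succ_act hiq]
      have e4 := (abs_le.mp (hM' i hiq i)).2
      simp only [if_true] at e4
      have e5 : en v T i i = ∑ a ∈ T, v a i ^ 2 := by
        unfold en
        apply Finset.sum_congr rfl
        intro a _
        ring
      rw [e5] at e4
      set m := mu p lam (q + 1) 0 i with hm
      set Λ0 := 2 ^ (p.ℓ + 1) * p.Λ with hΛ0
      have e6 : m ≤ Λ0 := by
        rw [mem_act, not_le] at hi
        rw [hm]
        unfold mu
        rw [div_le_iff₀ (by positivity), add_zero]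
        exact hi.le
      have e7 : p.Θ 0 = 2 * Λ0 := by
        unfold Par.Θ
        rw [pow_zero, div_one]
      have e8 : p.Λ ≤ Λ0 := by
        have : (1 : ℝ) ≤ 2 ^ (p.ℓ + 1) := one_le_pow₀ (by norm_num)
        have := p.Λ_pos
        rw [hΛ0]
        nlinarith
      have e9 : p.Λ ≤ m := by
        have e10 : m = mu p lam q (p.ℓ + 1) i := by
          rw [hm, mu_round, mu_succ]
        rw [e10]
        exact le_mu le_rfl hiq
      have e11 := p.hΛ4
      have e12 := p.hΛ3
      have e13 : √m ≤ √Λ0 := Real.sqrt_le_sqrt e6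
      have e14 : √Λ0 * √Λ0 = Λ0 := Real.mul_self_sqrt (by linarith)
      have e15 : 4 ≤ √Λ0 := by
        apply Real.le_sqrt_of_sq_le
        linarith
      rw [e7]
      nlinarith
    · rw [age_succ hiq, p.Θ_succ]
      have e4 := h.hL i hiq
      have e5 : ∑ a ∈ T, v a i ^ 2 ≤ ∑ a ∈ G, v a i ^ 2 :=
        Finset.sum_le_sum_of_subset_of_nonneg g1 fun _ _ _ => sq_nonneg _
      have e6 : ∑ a ∈ G, v a i ^ 2 = ∑ a ∈ V, (if a ∈ heavy p v lam q then 0 else v a i ^ 2) := by
        rw [hG, Finset.sum_filter]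
        apply Finset.sum_congr rfl
        intro a _
        by_cases ha : a ∈ heavy p v lam q <;> simp [ha]
      have e7 := p.Θ_pos (age p lam q i)
      have e8 := mul_le_mul_of_nonneg_right p.hpiv e7.le
      linarith
  have hx0 : Inv p lam (q + 1) 0 x := h.ix.next
  have hy0 : Inv p lam (q + 1) 0 y := h.iy.next
  have hA1 : Adm v S L x := ih L x z (hnode L (Or.inl rfl) x z (fun k => rfl) hx0 hzI)
  have hsumG : ∀ k, ∑ a ∈ G, v a k = ∑ a ∈ L, v a k + ∑ a ∈ G \ L, v a k := by
    intro k
    rw [add_comm]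
    exact (Finset.sum_sdiff hLG).symm
  have hA3 : Adm v S (G \ L) z' := ih (G \ L) z' y (hnode _ (Or.inr rfl) z' y (by
    intro k
    have e1 := hsumFG (fun a => v a k)
    rw [h.hxy k, e1, hsumG k]
    simp only [hz', hz, hw]
    ring) hz'I hy0)
  have hA2 : Adm v S F z := by
    apply adm_small
    intro U hU
    apply hS
    refine le_trans ?_ hB
    refine (nrm_add_le _ _).trans (add_le_add (hzI.nrm_le (by omega)) ?_)
    refine (nrm_sum_le v U).trans ?_
    calc ∑ a ∈ U, nrm (v a) ≤ ∑ _a ∈ U, (1 : ℝ) := by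
          apply Finset.sum_le_sum
          intro a _
          apply nrm_le_of_sq _ (by norm_num)
          simpa using hv a
      _ = U.card := by simp
      _ ≤ F.card := by exact_mod_cast Finset.card_le_card hU
      _ ≤ p.hs := hFcard
  have hz2 : z' = z + ∑ a ∈ F, v a := by
    funext k
    simp only [hz', hw, Pi.add_apply, Finset.sum_apply]
  have hz1 : z = x + ∑ a ∈ L, v a := by
    funext k
    simp only [hz, Pi.add_apply, Finset.sum_apply]
  have hFG : Disjoint F G := Finset.disjoint_filter_filter_not _ _ _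
  have hA23 : Adm v S (F ∪ (G \ L)) z := by
    apply adm_union _ hA2
    · rw [← hz2]; exact hA3
    · exact hFG.mono_right Finset.sdiff_subset
  have hdisj : Disjoint L (F ∪ (G \ L)) := by
    rw [Finset.disjoint_union_right]
    exact ⟨(hFG.mono_right hLG).symm, Finset.disjoint_sdiff⟩
  have hA := adm_union hdisj hA1 (by rw [← hz1]; exact hA23)
  have hV : L ∪ (F ∪ (G \ L)) = V := by
    rw [Finset.union_comm F, ← Finset.union_assoc, Finset.union_sdiff_of_subset hLG,
      Finset.union_comm]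
    exact Finset.filter_union_filter_not_eq _ _
  rwa [hV] at hA

theorem stepC (hv : ∀ a, ∑ k, v a k ^ 2 ≤ 1) {S : Set (Fin d → ℝ)} {B : ℝ}
    (hS : ∀ x, nrm x ≤ B → x ∈ S)
    (hB : √d * (p.Am + 25 * (p.n0 * (p.ℓ + 1) + 1)) + p.hs ≤ B) {q : ℕ}
    (ih : ∀ V x y, Node0 p v lam (q + 1) V x y → Adm v S V x) {V : Finset ι}
    {x y : Fin d → ℝ} (h : Node0 p v lam q V x y) : Adm v S V x := by
  -- downward induction inside the round
  have key : ∀ j : ℕ, j ≤ p.ℓ → ∀ V x y, Node p v lam q (p.ℓ - j) V x y → Adm v S V x := by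
    intro j
    induction j with
    | zero =>
      intro _ V x y hN
      rw [Nat.sub_zero] at hN
      exact stepB hv hS hB ih hN
    | succ j ihj =>
      intro hj V x y hN
      have h1 : p.ℓ - (j + 1) < p.ℓ := by omega
      have h2 : p.ℓ - (j + 1) + 1 = p.ℓ - j := by omega
      apply stepA hv h1 _ hN
      rw [h2]
      exact ihj (by omega)
  have h0 := key p.ℓ le_rfl V x y
  rw [Nat.sub_self] at h0
  apply h0
  refine ⟨h.hxy, h.ix, h.iy, h.hM, h.hD, ?_, ?_⟩
  · intro i hi
    have e1 : ∑ a ∈ V, (if a ∈ heavy p v lam q then 0 else v a i ^ 2) ≤ ∑ a ∈ V, v a i ^ 2 := by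
      apply Finset.sum_le_sum
      intro a _
      split_ifs
      · exact sq_nonneg _
      · exact le_rfl
    have e2 := h.hD i hi
    have e3 := p.Θ_pos (age p lam q i)
    have e4 := p.hτ
    have e5 : 0 ≤ 4 * (((d : ℝ) + 2) ^ 2 * p.τ) * p.Θ (age p lam q i) := by positivity
    rw [pow_zero]
    linarith
  · have e1 : ∀ a, (if a ∈ heavy p v lam q then (1 : ℝ) else 0) ≤
        ∑ i ∈ (act p lam q)ᶜ, v a i ^ 2 / (p.τ * p.Θ (age p lam q i)) := by
      intro a
      have hnn : ∀ i ∈ (act p lam q)ᶜ, 0 ≤ v a i ^ 2 / (p.τ * p.Θ (age p lam q i)) := by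
        intro i _
        have := p.hτ
        have := p.Θ_pos (age p lam q i)
        positivity
      split_ifs with ha
      · simp only [heavy, Finset.mem_filter, Finset.mem_univ, true_and] at ha
        obtain ⟨i, hi, hi2⟩ := ha
        have e2 : (1 : ℝ) ≤ v a i ^ 2 / (p.τ * p.Θ (age p lam q i)) := by
          have := p.hτ
          have := p.Θ_pos (age p lam q i)
          rw [le_div_iff₀ (by positivity)]
          linarith
        exact e2.trans (Finset.single_le_sum hnn (Finset.mem_compl.mpr hi))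
      · exact Finset.sum_nonneg hnn
    calc ∑ a ∈ V, (if a ∈ heavy p v lam q then (1 : ℝ) else 0) ≤
          ∑ a ∈ V, ∑ i ∈ (act p lam q)ᶜ, v a i ^ 2 / (p.τ * p.Θ (age p lam q i)) :=
          Finset.sum_le_sum fun a _ => e1 a
      _ = ∑ i ∈ (act p lam q)ᶜ, (∑ a ∈ V, v a i ^ 2) / (p.τ * p.Θ (age p lam q i)) := by
          rw [Finset.sum_comm]
          apply Finset.sum_congr rfl
          intro i _
          rw [Finset.sum_div]
      _ ≤ ∑ _i ∈ (act p lam q)ᶜ, 1 / p.τ := by
          apply Finset.sum_le_sum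
          intro i hi
          have e2 := h.hD i (Finset.mem_compl.mp hi)
          have e3 := p.hτ
          have e4 := p.Θ_pos (age p lam q i)
          rw [div_le_div_iff₀ (by positivity) e3]
          nlinarith
      _ = (((act p lam q)ᶜ.card : ℕ) : ℝ) * (1 / p.τ) := by
          rw [Finset.sum_const, nsmul_eq_mul]
      _ ≤ (3 / 4) ^ 0 * (d / p.τ) + 4 * p.r := by
          have e3 := p.hτ
          have e5 : (((act p lam q)ᶜ.card : ℕ) : ℝ) ≤ d := by
            have := Finset.card_le_univ (act p lam q)ᶜ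
            rw [Fintype.card_fin] at this
            exact_mod_cast this
          have e6 := p.hr
          have e7 := mul_le_mul_of_nonneg_right e5 (by positivity : 0 ≤ 1 / p.τ)
          have e8 : (d : ℝ) / p.τ = d * (1 / p.τ) := div_eq_mul_one_div _ _
          rw [pow_zero, one_mul, e8]
          linarith

end

end Vale.Agent.P262
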